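import Mathlib

-- ▼ part R047/Defs
section

/-!
R047 (S0066): definitions of the pattern and of the host matrix.
See the blueprint notes (helper397, with the simplification of helper287) in the team database.
-/

set_option autoImplicit false

namespace Crest.Agent.R047

/-- The fixed `66 × 66` pattern (0-indexed): zeros at `(0,1)`, `(1,0)` and `(i,i)`, `2 ≤ i ≤ 64`. -/
def pat (i j : Fin 66) : Bool :=
  !(decide ((i.val = 0 ∧ j.val = 1) ∨ (i.val = 1 ∧ j.val = 0) ∨
      (i.val = j.val ∧ 2 ≤ i.val ∧ i.val ≤ 64)))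

/-- Positions inside a block. -/
abbrev X (h : ℕ) := Fin (2 ^ h)

/-- The bits `≥ t` of `x`, as a number. -/
def D {h : ℕ} (t : ℕ) (x : X h) : ℕ := x.val / 2 ^ t

/-- Bit `b` of `x`. -/
def bit {h : ℕ} (x : X h) (b : ℕ) : Bool := decide (x.val / 2 ^ b % 2 = 1)

/-- State matrix of stage `u ∈ [0, 2h+1]`. -/
def st (h u : ℕ) (x s : X h) : Bool :=
  if u ≤ h then decide (D (h - u) x ≤ D (h - u) s)
  else decide (D (u - h - 1) x < D (u - h - 1) s)

/-- Gadgets: a step `u ∈ [0, 2h]` and a bit, which must be `false` for the central step `u = h`. -/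
abbrev Gad (h : ℕ) := {p : Fin (2 * h + 1) × Bool // p.1.val = h → p.2 = false}

/-- Lines (rows and columns alike): special lines `(k, x)`, gadget lines `(g, i, x)`, where the
gadget line index `i : Fin 65` stands for line `i + 1` of the pattern. -/
abbrev Line (h : ℕ) := (Fin (h + 2) × X h) ⊕ (Gad h × Fin 65 × X h)

/-- The test on special rows in gadget `(u, α)`. -/
def rowOK (h u : ℕ) (α : Bool) (k : ℕ) (x : X h) : Prop :=
  (u < h → α = false → k = (u + 1) / 2 → bit x (h - u - 1) = false) ∧
  (h < u → α = true → k = u / 2 → bit x (u - h - 1) = true)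

instance (h u : ℕ) (α : Bool) (k : ℕ) (x : X h) : Decidable (rowOK h u α k x) := by
  unfold rowOK; infer_instance

/-- The test on special columns in gadget `(u, α)`. -/
def colOK (h u : ℕ) (α : Bool) (k : ℕ) (s : X h) : Prop :=
  (u < h → α = true → k = (u + 2) / 2 → bit s (h - u - 1) = true) ∧
  (h < u → α = false → k = (u + 1) / 2 → bit s (u - h - 1) = false)

instance (h u : ℕ) (α : Bool) (k : ℕ) (x : X h) : Decidable (colOK h u α k x) := by
  unfold colOK; infer_instance

/-- Role (a line of the pattern) of a row in gadget `g`. -/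
def rrole {h : ℕ} (g : Gad h) : Line h → Option (Fin 66)
  | .inl (k, x) =>
      if rowOK h g.1.1 g.1.2 k x then
        (if k.val = g.1.1.val / 2 then some 0
         else if k.val = (g.1.1.val + 1) / 2 then some 1 else none)
      else none
  | .inr (g', i, _) =>
      if g' = g then (if g.1.1.val % 2 = 1 ∧ i.val = 0 then none else some i.succ) else none

/-- Role (a line of the pattern) of a column in gadget `g`. -/
def crole {h : ℕ} (g : Gad h) : Line h → Option (Fin 66)
  | .inl (k, s) =>
      if colOK h g.1.1 g.1.2 k s then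
        (if k.val = (g.1.1.val + 1) / 2 then some 0
         else if k.val = (g.1.1.val + 2) / 2 then some 1 else none)
      else none
  | .inr (g', j, _) =>
      if g' = g then (if g.1.1.val % 2 = 0 ∧ j.val = 0 then none else some j.succ) else none

/-- Value of the pattern at a pair of roles. -/
def val : Option (Fin 66) → Option (Fin 66) → Bool
  | some i, some j => pat i j
  | _, _ => false

/-- Special × special part: `(row block k, x)` against `(column block k', s)`. Stage `u` lives in
row block `u / 2` and column block `(u + 1) / 2`. -/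
def dmat {h : ℕ} (k : ℕ) (x : X h) (k' : ℕ) (s : X h) : Bool :=
  if k' = k then st h (2 * k) x s
  else if k' = k + 1 then st h (2 * k + 1) x s
  else false

/-- The host matrix on lines. -/
def M {h : ℕ} : Line h → Line h → Bool
  | .inl (k, x), .inl (k', s) => dmat k.val x k'.val s
  | .inl p, .inr q => val (rrole q.1 (.inl p)) (crole q.1 (.inr q))
  | .inr q, .inl p => val (rrole q.1 (.inr q)) (crole q.1 (.inl p))
  | .inr q, .inr q' => if q.1 = q'.1 then val (rrole q.1 (.inr q)) (crole q.1 (.inr q')) else false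

/-- Position of a special column: natural, except that block `0` comes first and block `h+1`
comes last. -/
def posC (h k : ℕ) (s : X h) : ℕ :=
  if k = 0 then 0 else if k ≤ h then s.val else 2 ^ h

/-- Sorting key of columns. -/
def ckey {h : ℕ} : Line h → ℕ
  | .inl (k, s) => posC h k.val s * (h + 3) + k.val
  | .inr (_, j, _) => (2 ^ h + 1) * (h + 3) + j.val

/-- Sorting key of rows (special rows are sorted decreasingly). -/
def rkey {h : ℕ} : Line h → ℕ
  | .inl (k, x) => (2 ^ h - x.val) * (h + 3) + k.val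
  | .inr (_, i, _) => (2 ^ h + 1) * (h + 3) + i.val

end Crest.Agent.R047
private theorem rz_351b505a24 : type_of% @_root_.Crest.Agent.R047.M.eq_1 := @_root_.Crest.Agent.R047.M.eq_1 -- L87
private theorem rz_351bbdc855 : type_of% @_root_.Crest.Agent.R047.ckey.eq_1 := @_root_.Crest.Agent.R047.ckey.eq_1 -- L99
private theorem rz_d6ba40279b : type_of% @_root_.Crest.Agent.R047.crole.eq_1 := @_root_.Crest.Agent.R047.crole.eq_1 -- L65
private theorem rz_f398afce5e : type_of% @_root_.Crest.Agent.R047.rkey.eq_1 := @_root_.Crest.Agent.R047.rkey.eq_1 -- L104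
private theorem rz_fef9b92a29 : type_of% @_root_.Crest.Agent.R047.rrole.eq_1 := @_root_.Crest.Agent.R047.rrole.eq_1 -- L55
private theorem rz_8b5a998b1a : type_of% @_root_.Crest.Agent.R047.val.eq_1 := @_root_.Crest.Agent.R047.val.eq_1 -- L75
end

-- ▼ part R047/Stmts
section

/-! Statements of the parts (for reference; the proofs live in the named files). -/

set_option autoImplicit false

namespace Crest.Agent.R047.Stmts
open Crest.Agent.R047

/-- Part T1 (file `Rigid.lean`): every copy is intended. -/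
def T1 : Prop := ∀ (h : ℕ), 1 ≤ h → ∀ (R C : Fin 66 → Line h),
    (∀ i j, i ≤ j → rkey (R i) ≤ rkey (R j)) →
    (∀ i j, i ≤ j → ckey (C i) ≤ ckey (C j)) →
    (∀ i j, M (R i) (C j) = pat i j) →
    ∃ x : X h, R 0 = .inl (⟨h / 2, by omega⟩, x) ∧ C 0 = .inl (⟨(h + 1) / 2, by omega⟩, x)

/-- Part T1a (file `RigidA.lean`): the last row is not special. -/
def T1a : Prop := ∀ (h : ℕ), 1 ≤ h → ∀ (R C : Fin 66 → Line h),
    (∀ i j, i ≤ j → rkey (R i) ≤ rkey (R j)) →
    (∀ i j, i ≤ j → ckey (C i) ≤ ckey (C j)) →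
    (∀ i j, M (R i) (C j) = pat i j) → ∀ p, R 65 ≠ .inl p

/-- Part T1b (file `RigidB.lean`): the last column is not special. -/
def T1b : Prop := ∀ (h : ℕ), 1 ≤ h → ∀ (R C : Fin 66 → Line h),
    (∀ i j, i ≤ j → rkey (R i) ≤ rkey (R j)) →
    (∀ i j, i ≤ j → ckey (C i) ≤ ckey (C j)) →
    (∀ i j, M (R i) (C j) = pat i j) → ∀ p, C 65 ≠ .inl p

/-- Part T1c (file `RigidC.lean`): both last lines are gadget lines. -/
def T1c : Prop := ∀ (h : ℕ), 1 ≤ h → ∀ (R C : Fin 66 → Line h),
    (∀ i j, i ≤ j → rkey (R i) ≤ rkey (R j)) →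
    (∀ i j, i ≤ j → ckey (C i) ≤ ckey (C j)) →
    (∀ i j, M (R i) (C j) = pat i j) → ∀ q q', R 65 = .inr q → C 65 = .inr q' →
    ∃ x : X h, R 0 = .inl (⟨h / 2, by omega⟩, x) ∧ C 0 = .inl (⟨(h + 1) / 2, by omega⟩, x)

/-- Part T2 (file `Far.lean`): farness. -/
def T2 : Prop := ∀ (h : ℕ), 1 ≤ h → ∀ (B : Line h → Line h → Bool),
    (¬ ∃ R C : Fin 66 → Line h,
      (∀ i j, i < j → rkey (R i) < rkey (R j)) ∧
      (∀ i j, i < j → ckey (C i) < ckey (C j)) ∧
      ∀ i j, B (R i) (C j) = pat i j) →
    (2 ^ h) ^ 2 ≤ (Finset.univ.filter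
      (fun p : Line h × Line h => M p.1 p.2 ≠ B p.1 p.2)).card

/-- Part T3 (file `Final.lean`): number of lines. -/
def T3 : Prop := ∀ (h : ℕ), 1 ≤ h → Fintype.card (Line h) ≤ (386 * h + 2) * 2 ^ h

/-- Part T4 (file `Final.lean`): the assembly. The host on `Fin n` is obtained by sorting the lines
by `rkey`/`ckey` (e.g. `Tuple.sort`), all-zero dummy lines elsewhere; the copies are injected
into `X h × (Fin 65 → Fin n) × (Fin 65 → Fin n)` by T1. -/
def T4 : Prop := T1 → T2 → T3 → ∃ H : Fin 66 → Fin 66 → Bool, ∀ h : ℕ, 1 ≤ h →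
      ∃ A : Fin ((386 * h + 2) * 2 ^ h) → Fin ((386 * h + 2) * 2 ^ h) → Bool,
        (∀ B : Fin ((386 * h + 2) * 2 ^ h) → Fin ((386 * h + 2) * 2 ^ h) → Bool,
          Fintype.card {rc : (Fin 66 → Fin ((386 * h + 2) * 2 ^ h)) × (Fin 66 → Fin ((386 * h + 2) * 2 ^ h)) //
    StrictMono rc.1 ∧ StrictMono rc.2 ∧ ∀ i j : Fin 66, B (rc.1 i) (rc.2 j) = H i j} = 0 →
            ((386 * (h : ℝ) + 2) ^ 2)⁻¹ * (((386 * h + 2) * 2 ^ h : ℕ) : ℝ) ^ 2 ≤
              ((Finset.univ.filter (fun rc : Fin ((386 * h + 2) * 2 ^ h) × Fin ((386 * h + 2) * 2 ^ h) =>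
                A rc.1 rc.2 ≠ B rc.1 rc.2)).card : ℝ)) ∧
        (Fintype.card {rc : (Fin 66 → Fin ((386 * h + 2) * 2 ^ h)) × (Fin 66 → Fin ((386 * h + 2) * 2 ^ h)) //
    StrictMono rc.1 ∧ StrictMono rc.2 ∧ ∀ i j : Fin 66, A (rc.1 i) (rc.2 j) = H i j} : ℝ) /
            (((386 * h + 2) * 2 ^ h : ℕ) : ℝ) ^ 132 ≤
          ((386 * (h : ℝ) + 2) ^ 2)⁻¹ * (2 : ℝ)⁻¹ ^ h

end Crest.Agent.R047.Stmts
end

-- ▼ part R047/Basic
section

set_option autoImplicit false

namespace Crest.Agent.R047

variable {h : ℕ}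

theorem pat_eq_false_iff (i j : Fin 66) : pat i j = false ↔
    ((i.val = 0 ∧ j.val = 1) ∨ (i.val = 1 ∧ j.val = 0) ∨
      (i.val = j.val ∧ 2 ≤ i.val ∧ i.val ≤ 64)) := by
  unfold pat
  rw [Bool.not_eq_false', decide_eq_true_eq]

theorem pat_eq_true_iff (i j : Fin 66) : pat i j = true ↔
    ¬ ((i.val = 0 ∧ j.val = 1) ∨ (i.val = 1 ∧ j.val = 0) ∨
      (i.val = j.val ∧ 2 ≤ i.val ∧ i.val ≤ 64)) := by
  rw [← pat_eq_false_iff]
  cases pat i j <;> simp

theorem pat_last_row (j : Fin 66) : pat 65 j = true := by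
  rw [pat_eq_true_iff]
  have : ((65 : Fin 66) : ℕ) = 65 := rfl
  omega

theorem pat_last_col (i : Fin 66) : pat i 65 = true := by
  rw [pat_eq_true_iff]
  have : ((65 : Fin 66) : ℕ) = 65 := rfl
  omega

/-- The column of the zero of row `i ≤ 64`, and vice versa. -/
def tau (i : Fin 66) : Fin 66 := if i.val = 0 then 1 else if i.val = 1 then 0 else i

theorem tau_val (i : Fin 66) :
    (tau i).val = if i.val = 0 then 1 else if i.val = 1 then 0 else i.val := by
  unfold tau
  split_ifs <;> rfl

theorem pat_tau_self (i : Fin 66) (hi : i.val ≤ 64) : pat i (tau i) = false := by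
  have ht := tau_val i
  rw [pat_eq_false_iff]
  split_ifs at ht <;> omega

theorem pat_tau_ne (i i' : Fin 66) (hi : i.val ≤ 64) (hne : i' ≠ i) : pat i' (tau i) = true := by
  have hne' : i'.val ≠ i.val := fun hh => hne (Fin.ext hh)
  have ht := tau_val i
  rw [pat_eq_true_iff]
  split_ifs at ht <;> omega

theorem pat_self_tau (i : Fin 66) (hi : i.val ≤ 64) : pat (tau i) i = false := by
  have ht := tau_val i
  rw [pat_eq_false_iff]
  split_ifs at ht <;> omega

theorem pat_ne_tau (i i' : Fin 66) (hi : i.val ≤ 64) (hne : i' ≠ i) : pat (tau i) i' = true := by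
  have hne' : i'.val ≠ i.val := fun hh => hne (Fin.ext hh)
  have ht := tau_val i
  rw [pat_eq_true_iff]
  split_ifs at ht <;> omega

theorem D_zero (x : X h) : D 0 x = x.val := by simp [D]

theorem D_succ (t : ℕ) (x : X h) : D t x = 2 * D (t + 1) x + (bit x t).toNat := by
  unfold D bit
  rw [pow_succ, ← Nat.div_div_eq_div_mul]
  by_cases hb : x.val / 2 ^ t % 2 = 1
  · simp only [hb, decide_true, Bool.toNat_true]; omega
  · simp only [hb, decide_false, Bool.toNat_false]; omega

theorem D_mono {x y : X h} (hxy : x.val ≤ y.val) (t : ℕ) : D t x ≤ D t y :=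
  Nat.div_le_div_right hxy

theorem D_top (x : X h) {t : ℕ} (ht : h ≤ t) : D t x = 0 := by
  unfold D
  apply Nat.div_eq_of_lt
  exact lt_of_lt_of_le x.isLt (Nat.pow_le_pow_right (by norm_num) ht)

theorem st_anti {u : ℕ} {x x' s : X h} (hx : x.val ≤ x'.val) (hst : st h u x' s = true) :
    st h u x s = true := by
  unfold st at *
  split_ifs at * with hu
  · have h1 := D_mono hx (h - u)
    simp only [decide_eq_true_eq] at *
    omega
  · have h1 := D_mono hx (u - h - 1)
    simp only [decide_eq_true_eq] at *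
    omega

theorem st_mono {u : ℕ} {x s s' : X h} (hs : s.val ≤ s'.val) (hst : st h u x s = true) :
    st h u x s' = true := by
  unfold st at *
  split_ifs at * with hu
  · have h1 := D_mono hs (h - u)
    simp only [decide_eq_true_eq] at *
    omega
  · have h1 := D_mono hs (u - h - 1)
    simp only [decide_eq_true_eq] at *
    omega

/-- Rows of one special block are nested on the special columns. -/
theorem dmat_anti {k k' : ℕ} {x x' s : X h} (hx : x.val ≤ x'.val) (hst : dmat k x' k' s = true) :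
    dmat k x k' s = true := by
  unfold dmat at *
  split_ifs at * with h1 h2
  · exact st_anti hx hst
  · exact st_anti hx hst

/-- Columns of one special block are nested on the special rows. -/
theorem dmat_mono {k k' : ℕ} {x s s' : X h} (hs : s.val ≤ s'.val) (hst : dmat k x k' s = true) :
    dmat k x k' s' = true := by
  unfold dmat at *
  split_ifs at * with h1 h2
  · exact st_mono hs hst
  · exact st_mono hs hst

theorem dmat_true {k k' : ℕ} {x s : X h} (hst : dmat k x k' s = true) : k' = k ∨ k' = k + 1 := by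
  unfold dmat at hst
  split_ifs at hst with h1 h2
  · exact Or.inl h1
  · exact Or.inr h2

theorem rkey_inl_lt (p : Fin (h + 2) × X h) : rkey (Sum.inl p : Line h) < (2 ^ h + 1) * (h + 3) := by
  obtain ⟨k, x⟩ := p
  have h1 := k.isLt
  have h2 : (2 ^ h - x.val) * (h + 3) ≤ 2 ^ h * (h + 3) :=
    Nat.mul_le_mul_right _ (Nat.sub_le _ _)
  simp only [rkey]
  have h3 : (2 ^ h + 1) * (h + 3) = 2 ^ h * (h + 3) + (h + 3) := by ring
  omega

theorem ckey_inl_lt (p : Fin (h + 2) × X h) : ckey (Sum.inl p : Line h) < (2 ^ h + 1) * (h + 3) := by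
  obtain ⟨k, x⟩ := p
  have h1 := k.isLt
  have h0 : posC h k.val x ≤ 2 ^ h := by
    unfold posC
    split_ifs
    · exact Nat.zero_le _
    · exact x.isLt.le
    · exact le_rfl
  have h2 : posC h k.val x * (h + 3) ≤ 2 ^ h * (h + 3) := Nat.mul_le_mul_right _ h0
  simp only [ckey]
  have h3 : (2 ^ h + 1) * (h + 3) = 2 ^ h * (h + 3) + (h + 3) := by ring
  omega

theorem rkey_inr (q : Gad h × Fin 65 × X h) :
    rkey (Sum.inr q : Line h) = (2 ^ h + 1) * (h + 3) + q.2.1.val := rfl

theorem ckey_inr (q : Gad h × Fin 65 × X h) :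
    ckey (Sum.inr q : Line h) = (2 ^ h + 1) * (h + 3) + q.2.1.val := rfl

/-- Lines before a special row are special. -/
theorem rkey_le_inl {r : Line h} {p : Fin (h + 2) × X h} (hle : rkey r ≤ rkey (Sum.inl p : Line h)) :
    ∃ p', r = .inl p' := by
  rcases r with p' | q
  · exact ⟨p', rfl⟩
  · have h1 := rkey_inl_lt p
    rw [rkey_inr] at hle
    omega

theorem ckey_le_inl {r : Line h} {p : Fin (h + 2) × X h} (hle : ckey r ≤ ckey (Sum.inl p : Line h)) :
    ∃ p', r = .inl p' := by
  rcases r with p' | q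
  · exact ⟨p', rfl⟩
  · have h1 := ckey_inl_lt p
    rw [ckey_inr] at hle
    omega

/-! ### Roles -/

theorem val_true {a b : Option (Fin 66)} (hv : val a b = true) :
    ∃ i j, a = some i ∧ b = some j := by
  rcases a with _ | i <;> rcases b with _ | j <;> simp_all [val]

theorem rrole_inr {g : Gad h} {q : Gad h × Fin 65 × X h} {a : Fin 66}
    (hr : rrole g (.inr q) = some a) :
    q.1 = g ∧ a = q.2.1.succ ∧ (g.1.1.val % 2 = 1 → q.2.1.val ≠ 0) := by
  obtain ⟨g', i, x⟩ := q
  simp only [rrole] at hr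
  split_ifs at hr with h1 h2
  refine ⟨h1, ?_, fun hh h0 => h2 ⟨hh, h0⟩⟩
  simpa using hr.symm

theorem crole_inr {g : Gad h} {q : Gad h × Fin 65 × X h} {a : Fin 66}
    (hr : crole g (.inr q) = some a) :
    q.1 = g ∧ a = q.2.1.succ ∧ (g.1.1.val % 2 = 0 → q.2.1.val ≠ 0) := by
  obtain ⟨g', i, x⟩ := q
  simp only [crole] at hr
  split_ifs at hr with h1 h2
  refine ⟨h1, ?_, fun hh h0 => h2 ⟨hh, h0⟩⟩
  simpa using hr.symm

theorem rrole_inl {g : Gad h} {k : Fin (h + 2)} {x : X h} {a : Fin 66}
    (hr : rrole g (.inl (k, x)) = some a) :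
    rowOK h g.1.1 g.1.2 k x ∧ ((a = 0 ∧ k.val = g.1.1.val / 2) ∨
      (a = 1 ∧ k.val = (g.1.1.val + 1) / 2 ∧ g.1.1.val % 2 = 1)) := by
  simp only [rrole] at hr
  split_ifs at hr with h1 h2 h3
  · simp only [Option.some.injEq] at hr
    exact ⟨h1, Or.inl ⟨hr.symm, h2⟩⟩
  · simp only [Option.some.injEq] at hr
    exact ⟨h1, Or.inr ⟨hr.symm, h3, by omega⟩⟩

theorem crole_inl {g : Gad h} {k : Fin (h + 2)} {x : X h} {a : Fin 66}
    (hr : crole g (.inl (k, x)) = some a) :
    colOK h g.1.1 g.1.2 k x ∧ ((a = 0 ∧ k.val = (g.1.1.val + 1) / 2) ∨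
      (a = 1 ∧ k.val = (g.1.1.val + 2) / 2 ∧ g.1.1.val % 2 = 0)) := by
  simp only [crole] at hr
  split_ifs at hr with h1 h2 h3
  · simp only [Option.some.injEq] at hr
    exact ⟨h1, Or.inl ⟨hr.symm, h2⟩⟩
  · simp only [Option.some.injEq] at hr
    exact ⟨h1, Or.inr ⟨hr.symm, h3, by omega⟩⟩

/-- If both roles in `g` are defined and not both lines are special, the entry is that of the
pattern. -/
theorem M_eq_pat {g : Gad h} {r c : Line h} {i j : Fin 66} (hr : rrole g r = some i)
    (hc : crole g c = some j) (hns : (∃ q, r = .inr q) ∨ (∃ q, c = .inr q)) :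
    M r c = pat i j := by
  rcases r with p | q <;> rcases c with p' | q'
  · rcases hns with ⟨q, hq⟩ | ⟨q, hq⟩ <;> cases hq
  · have h1 := (crole_inr hc).1
    simp only [M, h1, hr, hc, val]
  · have h1 := (rrole_inr hr).1
    simp only [M, h1, hr, hc, val]
  · have h1 := (crole_inr hc).1
    have h2 := (rrole_inr hr).1
    simp only [M, h1, h2, hr, hc, val, if_true]

theorem roles_of_row {q : Gad h × Fin 65 × X h} {c : Line h} (hM : M (.inr q) c = true) :
    (∃ i, rrole q.1 (.inr q) = some i) ∧ ∃ j, crole q.1 c = some j := by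
  rcases c with p | q'
  · obtain ⟨i, j, h1, h2⟩ := val_true hM
    exact ⟨⟨i, h1⟩, ⟨j, h2⟩⟩
  · simp only [M] at hM
    split_ifs at hM with h1
    obtain ⟨i, j, h1, h2⟩ := val_true hM
    exact ⟨⟨i, h1⟩, ⟨j, h2⟩⟩

theorem roles_of_col {q : Gad h × Fin 65 × X h} {r : Line h} (hM : M r (.inr q) = true) :
    (∃ i, rrole q.1 r = some i) ∧ ∃ j, crole q.1 (.inr q) = some j := by
  rcases r with p | q'
  · obtain ⟨i, j, h1, h2⟩ := val_true hM
    exact ⟨⟨i, h1⟩, ⟨j, h2⟩⟩
  · simp only [M] at hM
    split_ifs at hM with h1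
    obtain ⟨i, j, h2, h3⟩ := val_true hM
    rw [h1] at h2 h3
    exact ⟨⟨i, h2⟩, ⟨j, h3⟩⟩

end Crest.Agent.R047
end

-- ▼ part R047/RigidA
section

/-! Part T1a of S0066: the last row of a copy is not special. -/

set_option autoImplicit false

namespace Crest.Agent.R047

variable {h : ℕ}

/-- Class of a column relative to the row block `k` (special columns: `0`). -/
def ccodeA (k : ℕ) : Line h → ℕ
  | .inl _ => 0
  | .inr q => 1 + 2 * (q.1.1.1.val + 1 - 2 * k) + q.1.1.2.toNat

theorem M_inl_inr_true {k : Fin (h + 2)} {x : X h} {q : Gad h × Fin 65 × X h}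
    (hM : M (.inl (k, x)) (.inr q) = true) :
    (k.val = q.1.1.1.val / 2 ∨ k.val = (q.1.1.1.val + 1) / 2) ∧
      ∃ a, rrole q.1 (.inl (k, x)) = some a ∧ (a = 0 ↔ k.val = q.1.1.1.val / 2) := by
  obtain ⟨⟨a, ha⟩, -⟩ := roles_of_col hM
  have h2 := ha
  simp only [rrole] at h2
  split_ifs at h2 with h3 h4 h5
  · simp only [Option.some.injEq] at h2
    refine ⟨Or.inl h4, a, ha, ?_⟩
    rw [← h2]
    simp [h4]
  · simp only [Option.some.injEq] at h2
    refine ⟨Or.inr h5, a, ha, ?_⟩
    rw [← h2]
    simp [h4]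

theorem t1a : Stmts.T1a := by
  intro h hh R C hRk hCk hM p65 h65
  -- all rows are special
  have hR : ∀ i, ∃ p : Fin (h + 2) × X h, R i = .inl p := by
    intro i
    have h1 : rkey (R i) ≤ rkey (R 65) := hRk i 65 (Fin.le_last i)
    rw [h65] at h1
    exact rkey_le_inl h1
  choose p hp using hR
  obtain ⟨k65, x65⟩ := p65
  -- the blocks of the rows take two consecutive values
  have hblocks : ∃ a : ℕ, ∀ i, (p i).1.val = a ∨ (p i).1.val = a + 1 := by
    rcases hC : C 65 with ⟨k', s⟩ | q
    · refine ⟨k'.val - 1, fun i => ?_⟩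
      have h1 : M (R i) (C 65) = true := by rw [hM, pat_last_col]
      rw [hp i, hC] at h1
      have h2 := dmat_true (k := (p i).1.val) (k' := k'.val) (x := (p i).2) (s := s) h1
      omega
    · refine ⟨q.1.1.1.val / 2, fun i => ?_⟩
      have h1 : M (R i) (C 65) = true := by rw [hM, pat_last_col]
      rw [hp i, hC] at h1
      have h2 := (M_inl_inr_true (k := (p i).1) (x := (p i).2) (q := q) h1).1
      omega
  obtain ⟨a, ha⟩ := hblocks
  -- row 65 restricts the columns
  have hrow : ∀ j, M (.inl (k65, x65)) (C j) = true := by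
    intro j
    rw [← h65, hM, pat_last_row]
  have hcode : ∀ j, ccodeA k65.val (C j) < 7 := by
    intro j
    have h1 := hrow j
    rcases hC : C j with p' | q
    · simp [ccodeA]
    · rw [hC] at h1
      have h2 := (M_inl_inr_true h1).1
      have h3 := Bool.toNat_le q.1.1.2
      simp only [ccodeA]
      omega
  have hcodeinj : ∀ j j' (q q' : Gad h × Fin 65 × X h), C j = .inr q → C j' = .inr q' →
      ccodeA k65.val (C j) = ccodeA k65.val (C j') → q.1 = q'.1 := by
    intro j j' q q' hq hq' hcc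
    have h1 := hrow j
    have h1' := hrow j'
    rw [hq] at h1 hcc
    rw [hq'] at h1' hcc
    have h2 := (M_inl_inr_true h1).1
    have h2' := (M_inl_inr_true h1').1
    have h3 := Bool.toNat_le q.1.1.2
    have h3' := Bool.toNat_le q'.1.1.2
    simp only [ccodeA] at hcc
    have hu : q.1.1.1.val = q'.1.1.1.val := by omega
    have hb : q.1.1.2.toNat = q'.1.1.2.toNat := by omega
    apply Subtype.ext
    apply Prod.ext
    · exact Fin.ext hu
    · revert hb
      cases q.1.1.2 <;> cases q'.1.1.2 <;> simp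
  -- pigeonhole
  let f : Fin 65 → Fin 14 := fun i =>
    ⟨((p i.castSucc).1.val - a) * 7 + ccodeA k65.val (C (tau i.castSucc)), by
      have h1 := hcode (tau i.castSucc)
      have h2 := ha i.castSucc
      omega⟩
  obtain ⟨i, i', hne, hf⟩ := Fintype.exists_ne_map_eq_of_card_lt f (by simp)
  have hf' := congrArg Fin.val hf
  simp only [f] at hf'
  have hc1 := hcode (tau i.castSucc)
  have hc2 := hcode (tau i'.castSucc)
  have ha1 := ha i.castSucc
  have ha2 := ha i'.castSucc
  have hk : (p i.castSucc).1.val = (p i'.castSucc).1.val := by omega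
  have hcc : ccodeA k65.val (C (tau i.castSucc)) = ccodeA k65.val (C (tau i'.castSucc)) := by omega
  have hi : (i.castSucc : Fin 66).val ≤ 64 := by simp only [Fin.val_castSucc]; omega
  have hi' : (i'.castSucc : Fin 66).val ≤ 64 := by simp only [Fin.val_castSucc]; omega
  have hne1 : (i.castSucc : Fin 66) ≠ i'.castSucc := by
    intro hh2; exact hne (Fin.castSucc_injective _ hh2)
  have m1 : M (R i.castSucc) (C (tau i.castSucc)) = false := by rw [hM, pat_tau_self _ hi]
  have m2 : M (R i'.castSucc) (C (tau i.castSucc)) = true := by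
    rw [hM, pat_tau_ne _ _ hi hne1.symm]
  have m3 : M (R i'.castSucc) (C (tau i'.castSucc)) = false := by rw [hM, pat_tau_self _ hi']
  have m4 : M (R i.castSucc) (C (tau i'.castSucc)) = true := by
    rw [hM, pat_tau_ne _ _ hi' hne1]
  have hpi := hp i.castSucc
  have hpi' := hp i'.castSucc
  generalize p i.castSucc = r at *
  generalize p i'.castSucc = r' at *
  obtain ⟨k, x⟩ := r
  obtain ⟨k', x'⟩ := r'
  simp only at hk
  have hkk : k' = k := Fin.ext hk.symm
  subst hkk
  rcases hC1 : C (tau i.castSucc) with ⟨c1, s1⟩ | q1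
  · rcases hC2 : C (tau i'.castSucc) with ⟨c2, s2⟩ | q2
    · rw [hpi, hC1] at m1
      rw [hpi', hC1] at m2
      rw [hpi', hC2] at m3
      rw [hpi, hC2] at m4
      rcases le_total x.val x'.val with hle | hle
      · have := dmat_anti (k := k'.val) (k' := c1.val) (s := s1) hle m2
        change dmat k'.val x c1.val s1 = false at m1
        rw [this] at m1
        cases m1
      · have := dmat_anti (k := k'.val) (k' := c2.val) (s := s2) hle m4
        change dmat k'.val x' c2.val s2 = false at m3
        rw [this] at m3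
        cases m3
    · rw [hC1, hC2] at hcc
      simp only [ccodeA] at hcc
      omega
  · rcases hC2 : C (tau i'.castSucc) with ⟨c2, s2⟩ | q2
    · rw [hC1, hC2] at hcc
      simp only [ccodeA] at hcc
      omega
    · have hg : q1.1 = q2.1 := hcodeinj _ _ q1 q2 hC1 hC2 hcc
      rw [hpi, hC1] at m1
      rw [hpi', hC1] at m2
      rw [hpi, hC2] at m4
      obtain ⟨-, b1, hb1, hb1'⟩ := M_inl_inr_true m2
      obtain ⟨-, b2, hb2, hb2'⟩ := M_inl_inr_true m4
      have hroles := rrole_inl hb1
      have hroles2 := rrole_inl hb2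
      rw [← hg] at hb2 hb2' hroles2
      have hbb : b1 = b2 := by
        rcases hroles.2 with ⟨e1, e2⟩ | ⟨e1, e2, e3⟩ <;> rcases hroles2.2 with ⟨e4, e5⟩ | ⟨e4, e5, e6⟩
        · rw [e1, e4]
        · exfalso; omega
        · exfalso; omega
        · rw [e1, e4]
      subst hbb
      simp only [M] at m1 m2
      rw [hb1] at m2
      rw [hb2] at m1
      rw [m2] at m1
      cases m1

end Crest.Agent.R047
private theorem rz_1bdae02877 : type_of% @_root_.Crest.Agent.R047.ccodeA.eq_1 := @_root_.Crest.Agent.R047.ccodeA.eq_1 -- L12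
end

-- ▼ part R047/RigidB
section

/-! Part T1b of S0066: the last column of a copy is not special. -/

set_option autoImplicit false

namespace Crest.Agent.R047

variable {h : ℕ}

/-- Class of a row relative to the column block `k` (special rows: `0`). -/
def ccodeB (k : ℕ) : Line h → ℕ
  | .inl _ => 0
  | .inr q => 1 + 2 * (q.1.1.1.val + 2 - 2 * k) + q.1.1.2.toNat

theorem M_inr_inl_true {k : Fin (h + 2)} {s : X h} {q : Gad h × Fin 65 × X h}
    (hM : M (.inr q) (.inl (k, s)) = true) :
    (k.val = (q.1.1.1.val + 1) / 2 ∨ k.val = (q.1.1.1.val + 2) / 2) ∧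
      ∃ a, crole q.1 (.inl (k, s)) = some a := by
  obtain ⟨-, ⟨a, ha⟩⟩ := roles_of_row hM
  have h2 := crole_inl ha
  refine ⟨?_, a, ha⟩
  rcases h2.2 with ⟨-, e⟩ | ⟨-, e, -⟩
  · exact Or.inl e
  · exact Or.inr e

theorem t1b : Stmts.T1b := by
  intro h hh R C hRk hCk hM p65 h65
  -- all columns are special
  have hC : ∀ i, ∃ p : Fin (h + 2) × X h, C i = .inl p := by
    intro i
    have h1 : ckey (C i) ≤ ckey (C 65) := hCk i 65 (Fin.le_last i)
    rw [h65] at h1
    exact ckey_le_inl h1
  choose p hp using hC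
  obtain ⟨k65, x65⟩ := p65
  -- the blocks of the columns take two consecutive values
  have hblocks : ∃ a : ℕ, ∀ i, (p i).1.val = a ∨ (p i).1.val = a + 1 := by
    rcases hR : R 65 with ⟨k', s⟩ | q
    · refine ⟨k'.val, fun i => ?_⟩
      have h1 : M (R 65) (C i) = true := by rw [hM, pat_last_row]
      rw [hp i, hR] at h1
      exact dmat_true (k := k'.val) (k' := (p i).1.val) (x := s) (s := (p i).2) h1
    · refine ⟨(q.1.1.1.val + 1) / 2, fun i => ?_⟩
      have h1 : M (R 65) (C i) = true := by rw [hM, pat_last_row]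
      rw [hp i, hR] at h1
      have h2 := (M_inr_inl_true (k := (p i).1) (s := (p i).2) (q := q) h1).1
      omega
  obtain ⟨a, ha⟩ := hblocks
  -- column 65 restricts the rows
  have hcol : ∀ j, M (R j) (.inl (k65, x65)) = true := by
    intro j
    rw [← h65, hM, pat_last_col]
  have hcode : ∀ j, ccodeB k65.val (R j) < 7 := by
    intro j
    have h1 := hcol j
    rcases hR : R j with p' | q
    · simp [ccodeB]
    · rw [hR] at h1
      have h2 := (M_inr_inl_true h1).1
      have h3 := Bool.toNat_le q.1.1.2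
      simp only [ccodeB]
      omega
  have hcodeinj : ∀ j j' (q q' : Gad h × Fin 65 × X h), R j = .inr q → R j' = .inr q' →
      ccodeB k65.val (R j) = ccodeB k65.val (R j') → q.1 = q'.1 := by
    intro j j' q q' hq hq' hcc
    have h1 := hcol j
    have h1' := hcol j'
    rw [hq] at h1 hcc
    rw [hq'] at h1' hcc
    have h2 := (M_inr_inl_true h1).1
    have h2' := (M_inr_inl_true h1').1
    have h3 := Bool.toNat_le q.1.1.2
    have h3' := Bool.toNat_le q'.1.1.2
    simp only [ccodeB] at hcc
    have hu : q.1.1.1.val = q'.1.1.1.val := by omega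
    have hb : q.1.1.2.toNat = q'.1.1.2.toNat := by omega
    apply Subtype.ext
    apply Prod.ext
    · exact Fin.ext hu
    · revert hb
      cases q.1.1.2 <;> cases q'.1.1.2 <;> simp
  -- pigeonhole
  let f : Fin 65 → Fin 14 := fun i =>
    ⟨((p i.castSucc).1.val - a) * 7 + ccodeB k65.val (R (tau i.castSucc)), by
      have h1 := hcode (tau i.castSucc)
      have h2 := ha i.castSucc
      omega⟩
  obtain ⟨i, i', hne, hf⟩ := Fintype.exists_ne_map_eq_of_card_lt f (by simp)
  have hf' := congrArg Fin.val hf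
  simp only [f] at hf'
  have hc1 := hcode (tau i.castSucc)
  have hc2 := hcode (tau i'.castSucc)
  have ha1 := ha i.castSucc
  have ha2 := ha i'.castSucc
  have hk : (p i.castSucc).1.val = (p i'.castSucc).1.val := by omega
  have hcc : ccodeB k65.val (R (tau i.castSucc)) = ccodeB k65.val (R (tau i'.castSucc)) := by omega
  have hi : (i.castSucc : Fin 66).val ≤ 64 := by simp only [Fin.val_castSucc]; omega
  have hi' : (i'.castSucc : Fin 66).val ≤ 64 := by simp only [Fin.val_castSucc]; omega
  have hne1 : (i.castSucc : Fin 66) ≠ i'.castSucc := by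
    intro hh2; exact hne (Fin.castSucc_injective _ hh2)
  have m1 : M (R (tau i.castSucc)) (C i.castSucc) = false := by rw [hM, pat_self_tau _ hi]
  have m2 : M (R (tau i.castSucc)) (C i'.castSucc) = true := by
    rw [hM, pat_ne_tau _ _ hi hne1.symm]
  have m3 : M (R (tau i'.castSucc)) (C i'.castSucc) = false := by rw [hM, pat_self_tau _ hi']
  have m4 : M (R (tau i'.castSucc)) (C i.castSucc) = true := by
    rw [hM, pat_ne_tau _ _ hi' hne1]
  have hpi := hp i.castSucc
  have hpi' := hp i'.castSucc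
  generalize p i.castSucc = r at *
  generalize p i'.castSucc = r' at *
  obtain ⟨k, x⟩ := r
  obtain ⟨k', x'⟩ := r'
  simp only at hk
  have hkk : k' = k := Fin.ext hk.symm
  subst hkk
  rcases hR1 : R (tau i.castSucc) with ⟨c1, s1⟩ | q1
  · rcases hR2 : R (tau i'.castSucc) with ⟨c2, s2⟩ | q2
    · rw [hpi, hR1] at m1
      rw [hpi', hR1] at m2
      rw [hpi', hR2] at m3
      rw [hpi, hR2] at m4
      rcases le_total x.val x'.val with hle | hle
      · have := dmat_mono (k := c2.val) (k' := k'.val) (x := s2) hle m4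
        change dmat c2.val s2 k'.val x' = false at m3
        rw [this] at m3
        cases m3
      · have := dmat_mono (k := c1.val) (k' := k'.val) (x := s1) hle m2
        change dmat c1.val s1 k'.val x = false at m1
        rw [this] at m1
        cases m1
    · rw [hR1, hR2] at hcc
      simp only [ccodeB] at hcc
      omega
  · rcases hR2 : R (tau i'.castSucc) with ⟨c2, s2⟩ | q2
    · rw [hR1, hR2] at hcc
      simp only [ccodeB] at hcc
      omega
    · have hg : q1.1 = q2.1 := hcodeinj _ _ q1 q2 hR1 hR2 hcc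
      rw [hpi, hR1] at m1
      rw [hpi', hR1] at m2
      rw [hpi, hR2] at m4
      obtain ⟨-, b1, hb1⟩ := M_inr_inl_true m2
      obtain ⟨-, b2, hb2⟩ := M_inr_inl_true m4
      have hroles := crole_inl hb1
      have hroles2 := crole_inl hb2
      rw [← hg] at hb2 hroles2
      have hbb : b1 = b2 := by
        rcases hroles.2 with ⟨e1, e2⟩ | ⟨e1, e2, e3⟩ <;> rcases hroles2.2 with ⟨e4, e5⟩ | ⟨e4, e5, e6⟩
        · rw [e1, e4]
        · exfalso; omega
        · exfalso; omega
        · rw [e1, e4]
      subst hbb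
      simp only [M] at m1 m2
      rw [hb1] at m2
      rw [hb2] at m1
      rw [m2] at m1
      cases m1

end Crest.Agent.R047
private theorem rz_c8e71c2a8b : type_of% @_root_.Crest.Agent.R047.ccodeB.eq_1 := @_root_.Crest.Agent.R047.ccodeB.eq_1 -- L12
end

-- ▼ part R047/RigidC
section

set_option autoImplicit false

namespace Crest.Agent.R047

variable {h : ℕ}

/-- The stage lemma: with the order relations and the tests, a `1` followed by a `0` can only occur
at the central step. -/
theorem stage_lemma {u : ℕ} {α : Bool} {x x' s s' : X h} (hu : u ≤ 2 * h)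
    (hx : x'.val ≤ x.val)
    (hs : u = 0 ∨ u = 2 * h ∨ s.val ≤ s'.val)
    (t1 : u < h → α = false → bit x' (h - u - 1) = false)
    (t2 : h < u → α = true → bit x (u - h - 1) = true)
    (t3 : u < h → α = true → bit s' (h - u - 1) = true)
    (t4 : h < u → α = false → bit s (u - h - 1) = false)
    (h1 : st h u x s = true) (h2 : st h (u + 1) x' s' = false) : u = h := by
  by_contra hne
  rcases lt_or_gt_of_ne hne with hlt | hgt
  · -- first half
    have hc1 : D (h - u) x ≤ D (h - u) s := by
      have := h1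
      unfold st at this
      rw [if_pos hlt.le, decide_eq_true_eq] at this
      exact this
    have hc2 : D (h - u) x' ≤ D (h - u) x := D_mono hx _
    have hc3 : D (h - u) s ≤ D (h - u) s' := by
      rcases hs with h0 | h0 | h0
      · rw [D_top s (by omega), D_top s' (by omega)]
      · omega
      · exact D_mono h0 _
    have e : h - u = (h - u - 1) + 1 := by omega
    have d1 := D_succ (h - u - 1) x'
    have d2 := D_succ (h - u - 1) s'
    rw [← e] at d1 d2
    have hb : (bit x' (h - u - 1)).toNat ≤ (bit s' (h - u - 1)).toNat := by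
      cases α with
      | false => rw [t1 hlt rfl]; exact Nat.zero_le _
      | true => rw [t3 hlt rfl]; exact Bool.toNat_le _
    have h3 : D (h - (u + 1)) x' ≤ D (h - (u + 1)) s' := by
      have e2 : h - (u + 1) = h - u - 1 := by omega
      rw [e2]
      omega
    unfold st at h2
    rw [if_pos (by omega : u + 1 ≤ h), decide_eq_false_iff_not] at h2
    exact h2 h3
  · -- second half
    have hc1 : D (u - h - 1) x < D (u - h - 1) s := by
      have := h1
      unfold st at this
      rw [if_neg (by omega : ¬ u ≤ h), decide_eq_true_eq] at this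
      exact this
    have e : u - h = (u - h - 1) + 1 := by omega
    have d1 := D_succ (u - h - 1) x
    have d2 := D_succ (u - h - 1) s
    rw [← e] at d1 d2
    have hb : (bit s (u - h - 1)).toNat ≤ (bit x (u - h - 1)).toNat := by
      cases α with
      | false => rw [t4 hgt rfl]; exact Nat.zero_le _
      | true => rw [t2 hgt rfl]; exact Bool.toNat_le _
    have hc2 : D (u - h) x' ≤ D (u - h) x := D_mono hx _
    have hc3 : D (u - h) s ≤ D (u - h) s' := by
      rcases hs with h0 | h0 | h0
      · omega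
      · rw [D_top s (by omega)]; exact Nat.zero_le _
      · exact D_mono h0 _
    have h3 : D (u + 1 - h - 1) x' < D (u + 1 - h - 1) s' := by
      have e2 : u + 1 - h - 1 = u - h := by omega
      rw [e2]
      omega
    unfold st at h2
    rw [if_neg (by omega : ¬ u + 1 ≤ h), decide_eq_false_iff_not] at h2
    exact h2 h3

/-- The central step. -/
theorem central_lemma {x x' s s' : X h} (hx : x'.val ≤ x.val) (hs : s.val ≤ s'.val)
    (h1 : st h h x s = true) (h2 : st h (h + 1) x' s' = false) : x = s := by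
  unfold st at h1 h2
  rw [if_pos le_rfl, decide_eq_true_eq, Nat.sub_self, D_zero, D_zero] at h1
  rw [if_neg (by omega), decide_eq_false_iff_not, show h + 1 - h - 1 = 0 by omega,
    D_zero, D_zero] at h2
  apply Fin.ext
  omega

theorem ckey_le_succ {k k' : Fin (h + 2)} {s s' : X h} (hk : k'.val = k.val + 1)
    (hle : ckey (Sum.inl (k, s) : Line h) ≤ ckey (Sum.inl (k', s') : Line h)) :
    k.val = 0 ∨ k.val = h ∨ s.val ≤ s'.val := by
  simp only [ckey] at hle
  by_cases h0 : k.val = 0
  · exact Or.inl h0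
  by_cases h1 : k.val = h
  · exact Or.inr (Or.inl h1)
  right; right
  have hk' := k'.isLt
  have e1 : posC h k.val s = s.val := by
    unfold posC; rw [if_neg h0, if_pos (by omega)]
  have e2 : posC h k'.val s' = s'.val := by
    unfold posC; rw [if_neg (by omega), if_pos (by omega)]
  rw [e1, e2] at hle
  by_contra hcon
  push Not at hcon
  have h3 : (s'.val + 1) * (h + 3) ≤ s.val * (h + 3) := Nat.mul_le_mul_right _ hcon
  have h4 : (s'.val + 1) * (h + 3) = s'.val * (h + 3) + (h + 3) := by ring
  omega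

theorem rkey_le_succ {k k' : Fin (h + 2)} {x x' : X h} (hk : k'.val = k.val + 1)
    (hle : rkey (Sum.inl (k, x) : Line h) ≤ rkey (Sum.inl (k', x') : Line h)) :
    x'.val ≤ x.val := by
  simp only [rkey] at hle
  have hk' := k'.isLt
  by_contra hcon
  push Not at hcon
  have hx := x.isLt
  have hx' := x'.isLt
  have h3 : (2 ^ h - x'.val + 1) * (h + 3) ≤ (2 ^ h - x.val) * (h + 3) :=
    Nat.mul_le_mul_right _ (by omega)
  have h4 : (2 ^ h - x'.val + 1) * (h + 3) = (2 ^ h - x'.val) * (h + 3) + (h + 3) := by ring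
  omega

/-- A map `Fin 66 → Fin 66` which is injective is surjective. -/
theorem surj_of_inj {φ : Fin 66 → Fin 66} (hφ : Function.Injective φ) :
    Function.Surjective φ := Finite.surjective_of_injective hφ

/-- Rows of the pattern are pairwise distinct. -/
theorem pat_row_ne {i i' : Fin 66} (hne : i ≠ i') (he : ∀ j, pat i j = pat i' j) : False := by
  rcases Nat.lt_or_ge i.val 65 with hi | hi
  · have h1 := pat_tau_self i (by omega)
    have h2 := pat_tau_ne i i' (by omega) (Ne.symm hne)
    rw [he] at h1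
    rw [h1] at h2
    exact Bool.noConfusion h2
  · have hi' : i'.val ≤ 64 := by
      have := i.isLt
      have := i'.isLt
      have : i.val ≠ i'.val := fun hh => hne (Fin.ext hh)
      omega
    have h1 := pat_tau_self i' hi'
    have h2 := pat_tau_ne i' i hi' hne
    rw [← he] at h1
    rw [h1] at h2
    exact Bool.noConfusion h2

/-- Columns of the pattern are pairwise distinct. -/
theorem pat_col_ne {i i' : Fin 66} (hne : i ≠ i') (he : ∀ j, pat j i = pat j i') : False := by
  rcases Nat.lt_or_ge i.val 65 with hi | hi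
  · have h1 := pat_self_tau i (by omega)
    have h2 := pat_ne_tau i i' (by omega) (Ne.symm hne)
    rw [he] at h1
    rw [h1] at h2
    exact Bool.noConfusion h2
  · have hi' : i'.val ≤ 64 := by
      have := i.isLt
      have := i'.isLt
      have : i.val ≠ i'.val := fun hh => hne (Fin.ext hh)
      omega
    have h1 := pat_self_tau i' hi'
    have h2 := pat_ne_tau i' i hi' hne
    rw [← he] at h1
    rw [h1] at h2
    exact Bool.noConfusion h2

/-- The role map of the rows is injective. -/
theorem phi_inj {g : Gad h} {R C : Fin 66 → Line h} {φ ψ : Fin 66 → Fin 66}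
    (hM : ∀ i j, M (R i) (C j) = pat i j)
    (hφ : ∀ i, rrole g (R i) = some (φ i)) (hψ : ∀ j, crole g (C j) = some (ψ j))
    {q : Gad h × Fin 65 × X h} (hlast : R 65 = .inr q) : Function.Injective φ := by
  -- two special rows with the same role
  have key : ∀ i i' : Fin 66, i ≠ i' → ∀ k k' x x', R i = .inl (k, x) → R i' = .inl (k', x') →
      φ i = φ i' → x.val ≤ x'.val → False := by
    intro i i' hne k k' x x' hi hi' hφe hx
    have h1 := hφ i
    have h2 := hφ i'
    rw [hi] at h1
    rw [hi'] at h2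
    have h3 := (rrole_inl h1).2
    have h4 := (rrole_inl h2).2
    have hk : k = k' := by
      apply Fin.ext
      rcases h3 with ⟨a1, a2⟩ | ⟨a1, a2, _⟩ <;> rcases h4 with ⟨b1, b2⟩ | ⟨b1, b2, _⟩
      · omega
      · rw [a1, b1] at hφe; exact absurd hφe (by decide)
      · rw [a1, b1] at hφe; exact absurd hφe (by decide)
      · omega
    subst hk
    have hi64 : i'.val ≤ 64 := by
      by_contra hcon
      have : i' = 65 := Fin.ext (by have := i'.isLt; have : ((65 : Fin 66) : ℕ) = 65 := rfl; omega)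
      rw [this, hlast] at hi'
      cases hi'
    have hi64' : i.val ≤ 64 := by
      by_contra hcon
      have : i = 65 := Fin.ext (by have := i.isLt; have : ((65 : Fin 66) : ℕ) = 65 := rfl; omega)
      rw [this, hlast] at hi
      cases hi
    -- column tau i : zero in row i, one in row i'
    have e1 : M (R i) (C (tau i)) = false := by rw [hM]; exact pat_tau_self i hi64'
    have e2 : M (R i') (C (tau i)) = true := by
      rw [hM]; exact pat_tau_ne i i' hi64' (Ne.symm hne)
    rcases hc : C (tau i) with ⟨k2, s⟩ | q'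
    · rw [hi, hc] at e1
      rw [hi', hc] at e2
      simp only [M] at e1 e2
      rw [dmat_anti hx e2] at e1
      exact Bool.noConfusion e1
    · have e3 : M (R i) (C (tau i)) = pat (φ i) (ψ (tau i)) :=
        M_eq_pat (hφ i) (hψ _) (Or.inr ⟨q', hc⟩)
      have e4 : M (R i') (C (tau i)) = pat (φ i') (ψ (tau i)) :=
        M_eq_pat (hφ i') (hψ _) (Or.inr ⟨q', hc⟩)
      rw [e1] at e3
      rw [e2, ← hφe, ← e3] at e4
      exact Bool.noConfusion e4
  intro i i' hφe
  by_contra hne
  rcases hi : R i with ⟨k, x⟩ | q1 <;> rcases hi' : R i' with ⟨k', x'⟩ | q2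
  · rcases le_total x.val x'.val with hx | hx
    · exact key i i' hne k k' x x' hi hi' hφe hx
    · exact key i' i (Ne.symm hne) k' k x' x hi' hi hφe.symm hx
  · have h1 := hφ i
    have h2 := hφ i'
    rw [hi] at h1
    rw [hi'] at h2
    have h3 := (rrole_inl h1).2
    have h4 := rrole_inr h2
    have h5 : (φ i').val = q2.2.1.val + 1 := by rw [h4.2.1]; rfl
    rcases h3 with ⟨a1, a2⟩ | ⟨a1, a2, a3⟩
    · rw [← hφe, a1] at h5
      have : ((0 : Fin 66) : ℕ) = 0 := rfl
      omega
    · rw [← hφe, a1] at h5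
      have : ((1 : Fin 66) : ℕ) = 1 := rfl
      have := h4.2.2 a3
      omega
  · have h1 := hφ i
    have h2 := hφ i'
    rw [hi] at h1
    rw [hi'] at h2
    have h3 := (rrole_inl h2).2
    have h4 := rrole_inr h1
    have h5 : (φ i).val = q1.2.1.val + 1 := by rw [h4.2.1]; rfl
    rcases h3 with ⟨a1, a2⟩ | ⟨a1, a2, a3⟩
    · rw [hφe, a1] at h5
      have : ((0 : Fin 66) : ℕ) = 0 := rfl
      omega
    · rw [hφe, a1] at h5
      have : ((1 : Fin 66) : ℕ) = 1 := rfl
      have := h4.2.2 a3
      omega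
  · apply pat_row_ne hne
    intro j
    rw [← hM, ← hM, M_eq_pat (hφ i) (hψ j) (Or.inl ⟨q1, hi⟩),
      M_eq_pat (hφ i') (hψ j) (Or.inl ⟨q2, hi'⟩), hφe]

/-- The role map of the columns is injective. -/
theorem psi_inj {g : Gad h} {R C : Fin 66 → Line h} {φ ψ : Fin 66 → Fin 66}
    (hM : ∀ i j, M (R i) (C j) = pat i j)
    (hφ : ∀ i, rrole g (R i) = some (φ i)) (hψ : ∀ j, crole g (C j) = some (ψ j))
    {q : Gad h × Fin 65 × X h} (hlast : C 65 = .inr q) : Function.Injective ψ := by
  have key : ∀ i i' : Fin 66, i ≠ i' → ∀ k k' x x', C i = .inl (k, x) → C i' = .inl (k', x') →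
      ψ i = ψ i' → x.val ≤ x'.val → False := by
    intro i i' hne k k' x x' hi hi' hφe hx
    have h1 := hψ i
    have h2 := hψ i'
    rw [hi] at h1
    rw [hi'] at h2
    have h3 := (crole_inl h1).2
    have h4 := (crole_inl h2).2
    have hk : k = k' := by
      apply Fin.ext
      rcases h3 with ⟨a1, a2⟩ | ⟨a1, a2, _⟩ <;> rcases h4 with ⟨b1, b2⟩ | ⟨b1, b2, _⟩
      · omega
      · rw [a1, b1] at hφe; exact absurd hφe (by decide)
      · rw [a1, b1] at hφe; exact absurd hφe (by decide)
      · omega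
    subst hk
    have hi64 : i'.val ≤ 64 := by
      by_contra hcon
      have : i' = 65 := Fin.ext (by have := i'.isLt; have : ((65 : Fin 66) : ℕ) = 65 := rfl; omega)
      rw [this, hlast] at hi'
      cases hi'
    -- row tau i' : zero in column i', one in column i
    have e1 : M (R (tau i')) (C i') = false := by rw [hM]; exact pat_self_tau i' hi64
    have e2 : M (R (tau i')) (C i) = true := by
      rw [hM]; exact pat_ne_tau i' i hi64 hne
    rcases hc : R (tau i') with ⟨k2, s⟩ | q'
    · rw [hi', hc] at e1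
      rw [hi, hc] at e2
      simp only [M] at e1 e2
      rw [dmat_mono hx e2] at e1
      exact Bool.noConfusion e1
    · have e3 : M (R (tau i')) (C i') = pat (φ (tau i')) (ψ i') :=
        M_eq_pat (hφ _) (hψ i') (Or.inl ⟨q', hc⟩)
      have e4 : M (R (tau i')) (C i) = pat (φ (tau i')) (ψ i) :=
        M_eq_pat (hφ _) (hψ i) (Or.inl ⟨q', hc⟩)
      rw [e1] at e3
      rw [e2, hφe, ← e3] at e4
      exact Bool.noConfusion e4
  intro i i' hφe
  by_contra hne
  rcases hi : C i with ⟨k, x⟩ | q1 <;> rcases hi' : C i' with ⟨k', x'⟩ | q2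
  · rcases le_total x.val x'.val with hx | hx
    · exact key i i' hne k k' x x' hi hi' hφe hx
    · exact key i' i (Ne.symm hne) k' k x' x hi' hi hφe.symm hx
  · have h1 := hψ i
    have h2 := hψ i'
    rw [hi] at h1
    rw [hi'] at h2
    have h3 := (crole_inl h1).2
    have h4 := crole_inr h2
    have h5 : (ψ i').val = q2.2.1.val + 1 := by rw [h4.2.1]; rfl
    rcases h3 with ⟨a1, a2⟩ | ⟨a1, a2, a3⟩
    · rw [← hφe, a1] at h5
      have : ((0 : Fin 66) : ℕ) = 0 := rfl
      omega
    · rw [← hφe, a1] at h5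
      have : ((1 : Fin 66) : ℕ) = 1 := rfl
      have := h4.2.2 a3
      omega
  · have h1 := hψ i
    have h2 := hψ i'
    rw [hi] at h1
    rw [hi'] at h2
    have h3 := (crole_inl h2).2
    have h4 := crole_inr h1
    have h5 : (ψ i).val = q1.2.1.val + 1 := by rw [h4.2.1]; rfl
    rcases h3 with ⟨a1, a2⟩ | ⟨a1, a2, a3⟩
    · rw [hφe, a1] at h5
      have : ((0 : Fin 66) : ℕ) = 0 := rfl
      omega
    · rw [hφe, a1] at h5
      have : ((1 : Fin 66) : ℕ) = 1 := rfl
      have := h4.2.2 a3
      omega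
  · apply pat_col_ne hne
    intro j
    rw [← hM, ← hM, M_eq_pat (hφ j) (hψ i) (Or.inr ⟨q1, hi⟩),
      M_eq_pat (hφ j) (hψ i') (Or.inr ⟨q2, hi'⟩), hφe]

theorem t1c : Stmts.T1c := by
  intro h hh R C hR hC hM q q' hq hq'
  -- the common gadget
  have hqq : M (R 65) (C 65) = true := by rw [hM]; exact pat_last_row 65
  have hgg : q'.1 = q.1 := by
    rw [hq, hq'] at hqq
    obtain ⟨_, j, hj⟩ := roles_of_row hqq
    exact (crole_inr hj).1
  obtain ⟨g, hg⟩ : ∃ g, g = q.1 := ⟨_, rfl⟩
  -- roles
  have hφ0 : ∀ i, ∃ a, rrole g (R i) = some a := by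
    intro i
    have h1 : M (R i) (C 65) = true := by rw [hM]; exact pat_last_col i
    rw [hq'] at h1
    have h2 := (roles_of_col h1).1
    rwa [hgg, ← hg] at h2
  have hψ0 : ∀ j, ∃ a, crole g (C j) = some a := by
    intro j
    have h1 : M (R 65) (C j) = true := by rw [hM]; exact pat_last_row j
    rw [hq] at h1
    have h2 := (roles_of_row h1).2
    rwa [← hg] at h2
  choose φ hφ using hφ0
  choose ψ hψ using hψ0
  have hφi := phi_inj hM hφ hψ hq
  have hψi := psi_inj hM hφ hψ hq'
  have hval0 : ((0 : Fin 66) : ℕ) = 0 := rfl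
  have hval1 : ((1 : Fin 66) : ℕ) = 1 := rfl
  -- values off the special part
  have hrow : ∀ i q1 j, R i = .inr q1 → pat i j = pat (φ i) (ψ j) := by
    intro i q1 j hi
    rw [← hM]
    exact M_eq_pat (hφ i) (hψ j) (Or.inl ⟨q1, hi⟩)
  have hcol : ∀ j q1 i, C j = .inr q1 → pat i j = pat (φ i) (ψ j) := by
    intro j q1 i hj
    rw [← hM]
    exact M_eq_pat (hφ i) (hψ j) (Or.inr ⟨q1, hj⟩)
  have hR65 : ∀ i q1, R i = .inr q1 → (φ i).val = q1.2.1.val + 1 ∧
      (g.1.1.val % 2 = 1 → 2 ≤ (φ i).val) := by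
    intro i q1 hi
    have h1 := hφ i
    rw [hi] at h1
    have h2 := rrole_inr h1
    have h3 : (φ i).val = q1.2.1.val + 1 := by rw [h2.2.1]; rfl
    refine ⟨h3, fun hodd => ?_⟩
    have := h2.2.2 hodd
    omega
  have hC65 : ∀ i q1, C i = .inr q1 → (ψ i).val = q1.2.1.val + 1 ∧
      (g.1.1.val % 2 = 0 → 2 ≤ (ψ i).val) := by
    intro i q1 hi
    have h1 := hψ i
    rw [hi] at h1
    have h2 := crole_inr h1
    have h3 : (ψ i).val = q1.2.1.val + 1 := by rw [h2.2.1]; rfl
    refine ⟨h3, fun hodd => ?_⟩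
    have := h2.2.2 hodd
    omega
  have hu := g.1.1.isLt
  -- first lines are special
  have hR0 : ∃ p, R 0 = .inl p := by
    obtain ⟨i0, hi0⟩ := surj_of_inj hφi 0
    rcases hRi : R i0 with p | q1
    · exact rkey_le_inl (by rw [← hRi]; exact hR 0 i0 (Fin.zero_le _))
    · have := (hR65 i0 q1 hRi).1
      rw [hi0] at this
      omega
  have hC0 : ∃ p, C 0 = .inl p := by
    obtain ⟨i0, hi0⟩ := surj_of_inj hψi 0
    rcases hCi : C i0 with p | q1
    · exact ckey_le_inl (by rw [← hCi]; exact hC 0 i0 (Fin.zero_le _))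
    · have := (hC65 i0 q1 hCi).1
      rw [hi0] at this
      omega
  obtain ⟨⟨k, x⟩, hR0⟩ := hR0
  obtain ⟨⟨k', s⟩, hC0⟩ := hC0
  have rφ0 := hφ 0
  rw [hR0] at rφ0
  have rψ0 := hψ 0
  rw [hC0] at rψ0
  have rφ0' := rrole_inl rφ0
  have rψ0' := crole_inl rψ0
  rcases Nat.mod_two_eq_zero_or_one g.1.1.val with hpar | hpar
  · -- even step
    have hφ00 : φ 0 = 0 := by
      rcases rφ0'.2 with ⟨a, _⟩ | ⟨_, _, b⟩
      · exact a
      · omega
    -- other rows are gadget rows
    have hRg : ∀ i : Fin 66, i ≠ 0 → ∃ q1, R i = .inr q1 := by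
      intro i hi
      rcases hRi : R i with ⟨k1, x1⟩ | q1
      · exfalso
        have h1 := hφ i
        rw [hRi] at h1
        rcases (rrole_inl h1).2 with ⟨a, _⟩ | ⟨_, _, b⟩
        · exact hi (hφi (a.trans hφ00.symm))
        · omega
      · exact ⟨q1, rfl⟩
    have hφ1 : φ 1 = 1 := by
      obtain ⟨i1, hi1⟩ := surj_of_inj hφi 1
      have hne : i1 ≠ 0 := by
        rintro rfl
        rw [hφ00] at hi1
        exact absurd hi1 (by decide)
      obtain ⟨q1, hq1⟩ := hRg 1 (by decide)
      obtain ⟨q2, hq2⟩ := hRg i1 hne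
      have hle := hR 1 i1 (by
        rw [Fin.le_def]
        have : i1.val ≠ 0 := fun hh => hne (Fin.ext hh)
        omega)
      rw [hq1, hq2, rkey_inr, rkey_inr] at hle
      have h1 := (hR65 1 q1 hq1).1
      have h2 := (hR65 i1 q2 hq2).1
      rw [hi1] at h2
      apply Fin.ext
      omega
    obtain ⟨q1, hq1⟩ := hRg 1 (by decide)
    have hψ0 : ψ 0 = 0 := by
      have h1 := hrow 1 q1 0 hq1
      rw [hφ1, (pat_eq_false_iff 1 0).2 (by omega)] at h1
      have h2 := (pat_eq_false_iff 1 (ψ 0)).1 h1.symm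
      apply Fin.ext
      omega
    obtain ⟨⟨k'', s'⟩, hC1⟩ : ∃ p, C 1 = .inl p := by
      rcases hCi : C 1 with p | q2
      · exact ⟨p, rfl⟩
      · exfalso
        have h1 := hcol 1 q2 0 hCi
        rw [hφ00, (pat_eq_false_iff 0 1).2 (by omega)] at h1
        have h2 := (pat_eq_false_iff 0 (ψ 1)).1 h1.symm
        have h3 := (hC65 1 q2 hCi).2 hpar
        omega
    have rψ1 := hψ 1
    rw [hC1] at rψ1
    have rψ1' := crole_inl rψ1
    have hψ1 : ψ 1 = 1 ∧ k''.val = (g.1.1.val + 2) / 2 := by
      rcases rψ1'.2 with ⟨a, _⟩ | ⟨a, b, _⟩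
      · exfalso
        have := hψi (a.trans hψ0.symm)
        exact absurd this (by decide)
      · exact ⟨a, b⟩
    have hk : k.val = g.1.1.val / 2 := by
      rcases rφ0'.2 with ⟨_, a⟩ | ⟨_, _, b⟩
      · exact a
      · omega
    have hk' : k'.val = (g.1.1.val + 1) / 2 := by
      rcases rψ0'.2 with ⟨_, a⟩ | ⟨a, _, _⟩
      · exact a
      · rw [hψ0] at a; exact absurd a (by decide)
    -- entries
    have e1 : st h g.1.1.val x s = true := by
      have := hM 0 0
      rw [hR0, hC0] at this
      simp only [M, dmat] at this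
      rw [if_pos (by omega : k'.val = k.val), (by omega : 2 * k.val = g.1.1.val)] at this
      rw [this, pat_eq_true_iff]
      omega
    have e2 : st h (g.1.1.val + 1) x s' = false := by
      have := hM 0 1
      rw [hR0, hC1] at this
      simp only [M, dmat] at this
      rw [if_neg (by omega), if_pos (by omega : k''.val = k.val + 1),
        (by omega : 2 * k.val + 1 = g.1.1.val + 1)] at this
      rw [this, pat_eq_false_iff]
      omega
    have hord := hC 0 1 (by decide)
    rw [hC0, hC1] at hord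
    have hord' := ckey_le_succ (by omega) hord
    have huh : g.1.1.val = h := by
      apply stage_lemma (α := g.1.2) (x := x) (x' := x) (s := s) (s' := s') (by omega) le_rfl
        (by rcases hord' with a | a | a <;> [left; (right; left); (right; right)] <;> omega)
      · intro h1 h2; exact rφ0'.1.1 h1 h2 (by omega)
      · intro h1 h2; exact rφ0'.1.2 h1 h2 (by omega)
      · intro h1 h2; exact rψ1'.1.1 h1 h2 (by omega)
      · intro h1 h2; exact rψ0'.1.2 h1 h2 (by omega)
      · exact e1
      · exact e2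
    rw [huh] at e1 e2 hk hk'
    have hxs : x = s := central_lemma le_rfl
      (by rcases hord' with a | a | a <;> omega) e1 e2
    refine ⟨x, ?_, ?_⟩
    · rw [hR0]
      congr 2
      exact Fin.ext hk
    · rw [hC0, hxs]
      congr 2
      exact Fin.ext hk'
  · -- odd step
    have hψ00 : ψ 0 = 0 := by
      rcases rψ0'.2 with ⟨a, _⟩ | ⟨_, _, b⟩
      · exact a
      · omega
    -- other columns are gadget columns
    have hCg : ∀ i : Fin 66, i ≠ 0 → ∃ q1, C i = .inr q1 := by
      intro i hi
      rcases hCi : C i with ⟨k1, x1⟩ | q1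
      · exfalso
        have h1 := hψ i
        rw [hCi] at h1
        rcases (crole_inl h1).2 with ⟨a, _⟩ | ⟨_, _, b⟩
        · exact hi (hψi (a.trans hψ00.symm))
        · omega
      · exact ⟨q1, rfl⟩
    have hψ1 : ψ 1 = 1 := by
      obtain ⟨i1, hi1⟩ := surj_of_inj hψi 1
      have hne : i1 ≠ 0 := by
        rintro rfl
        rw [hψ00] at hi1
        exact absurd hi1 (by decide)
      obtain ⟨q1, hq1⟩ := hCg 1 (by decide)
      obtain ⟨q2, hq2⟩ := hCg i1 hne
      have hle := hC 1 i1 (by
        rw [Fin.le_def]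
        have : i1.val ≠ 0 := fun hh => hne (Fin.ext hh)
        omega)
      rw [hq1, hq2, ckey_inr, ckey_inr] at hle
      have h1 := (hC65 1 q1 hq1).1
      have h2 := (hC65 i1 q2 hq2).1
      rw [hi1] at h2
      apply Fin.ext
      omega
    obtain ⟨q1, hq1⟩ := hCg 1 (by decide)
    have hφ0 : φ 0 = 0 := by
      have h1 := hcol 1 q1 0 hq1
      rw [hψ1, (pat_eq_false_iff 0 1).2 (by omega)] at h1
      have h2 := (pat_eq_false_iff (φ 0) 1).1 h1.symm
      apply Fin.ext
      omega
    obtain ⟨⟨k'', x'⟩, hR1⟩ : ∃ p, R 1 = .inl p := by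
      rcases hRi : R 1 with p | q2
      · exact ⟨p, rfl⟩
      · exfalso
        have h1 := hrow 1 q2 0 hRi
        rw [hψ00, (pat_eq_false_iff 1 0).2 (by omega)] at h1
        have h2 := (pat_eq_false_iff (φ 1) 0).1 h1.symm
        have h3 := (hR65 1 q2 hRi).2 hpar
        omega
    have rφ1 := hφ 1
    rw [hR1] at rφ1
    have rφ1' := rrole_inl rφ1
    have hφ1 : φ 1 = 1 ∧ k''.val = (g.1.1.val + 1) / 2 := by
      rcases rφ1'.2 with ⟨a, _⟩ | ⟨a, b, _⟩
      · exfalso
        have := hφi (a.trans hφ0.symm)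
        exact absurd this (by decide)
      · exact ⟨a, b⟩
    have hk : k.val = g.1.1.val / 2 := by
      rcases rφ0'.2 with ⟨_, a⟩ | ⟨a, _, _⟩
      · exact a
      · rw [hφ0] at a; exact absurd a (by decide)
    have hk' : k'.val = (g.1.1.val + 1) / 2 := by
      rcases rψ0'.2 with ⟨_, a⟩ | ⟨_, _, b⟩
      · exact a
      · omega
    -- entries
    have e1 : st h g.1.1.val x s = true := by
      have := hM 0 0
      rw [hR0, hC0] at this
      simp only [M, dmat] at this
      rw [if_neg (by omega), if_pos (by omega : k'.val = k.val + 1),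
        (by omega : 2 * k.val + 1 = g.1.1.val)] at this
      rw [this, pat_eq_true_iff]
      omega
    have e2 : st h (g.1.1.val + 1) x' s = false := by
      have := hM 1 0
      rw [hR1, hC0] at this
      simp only [M, dmat] at this
      rw [if_pos (by omega : k'.val = k''.val),
        (by omega : 2 * k''.val = g.1.1.val + 1)] at this
      rw [this, pat_eq_false_iff]
      omega
    have hord := hR 0 1 (by decide)
    rw [hR0, hR1] at hord
    have hord' := rkey_le_succ (by omega) hord
    have huh : g.1.1.val = h := by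
      apply stage_lemma (α := g.1.2) (x := x) (x' := x') (s := s) (s' := s) (by omega) hord'
        (Or.inr (Or.inr le_rfl))
      · intro h1 h2; exact rφ1'.1.1 h1 h2 (by omega)
      · intro h1 h2; exact rφ0'.1.2 h1 h2 (by omega)
      · intro h1 h2; exact rψ0'.1.1 h1 h2 (by omega)
      · intro h1 h2; exact rψ0'.1.2 h1 h2 (by omega)
      · exact e1
      · exact e2
    rw [huh] at e1 e2 hk hk'
    have hxs : x = s := central_lemma hord' le_rfl e1 e2
    refine ⟨x, ?_, ?_⟩
    · rw [hR0]
      congr 2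
      exact Fin.ext hk
    · rw [hC0, hxs]
      congr 2
      exact Fin.ext hk'

end Crest.Agent.R047
end

-- ▼ part R047/Far
section

set_option autoImplicit false

namespace Crest.Agent.R047

variable {h : ℕ}

instance neZeroPow : NeZero (2 ^ h) := ⟨by positivity⟩

/-- Position of the special column of block `k` in the thread `(x, y)`. -/
def cpos (k : ℕ) (x y : X h) : X h := if k = 0 ∨ k = h + 1 then y else x

theorem cpos_mid {k : ℕ} (x y : X h) (h1 : 1 ≤ k) (h2 : k ≤ h) : cpos k x y = x := by
  unfold cpos; rw [if_neg (by omega)]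

/-- Cells owned by the thread `(x, y)`. -/
def Own (x y : X h) : Line h → Line h → Prop
  | .inl (_, a), .inl (_, b) => a = x ∧ b = y
  | .inl (_, a), .inr (_, _, b) => a = x ∧ b = y
  | .inr (_, _, a), .inl (k, b) => a = x + y ∧ b = cpos k.val x y
  | .inr (_, _, a), .inr (_, _, b) => a = x + y ∧ b = y

theorem own_unique {x y x' y' : X h} {r c : Line h} (h1 : Own x y r c) (h2 : Own x' y' r c) :
    x = x' ∧ y = y' := by
  rcases r with ⟨k, a⟩ | ⟨g, i, a⟩ <;> rcases c with ⟨k', b⟩ | ⟨g', j, b⟩ <;>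
    simp only [Own] at h1 h2
  · exact ⟨h1.1.symm.trans h2.1, h1.2.symm.trans h2.2⟩
  · exact ⟨h1.1.symm.trans h2.1, h1.2.symm.trans h2.2⟩
  · have e1 : x + y = x' + y' := h1.1.symm.trans h2.1
    have e2 : cpos k'.val x y = cpos k'.val x' y' := h1.2.symm.trans h2.2
    unfold cpos at e2
    split_ifs at e2 with hk
    · subst e2
      exact ⟨add_right_cancel e1, rfl⟩
    · subst e2
      exact ⟨rfl, add_left_cancel e1⟩
  · have e1 : x + y = x' + y' := h1.1.symm.trans h2.1
    have e2 : y = y' := h1.2.symm.trans h2.2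
    subst e2
    exact ⟨add_right_cancel e1, rfl⟩

/-- Block index. -/
def blk (k : ℕ) : Fin (h + 2) := ⟨min k (h + 1), by omega⟩

theorem blk_val {k : ℕ} (hk : k ≤ h + 1) : (blk k : Fin (h + 2)).val = k := by
  simp [blk, hk]

/-- The bit used at step `u`. -/
def alp (u : ℕ) (x : X h) : Bool :=
  if u < h then bit x (h - u - 1) else if h < u then bit x (u - h - 1) else false

/-- The gadget used at step `u`. -/
def gad (u : ℕ) (x : X h) : Gad h :=
  ⟨(⟨min u (2 * h), by omega⟩, alp (min u (2 * h)) x), by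
    intro hu
    simp only at hu
    simp only [alp, hu, lt_irrefl, if_false]⟩

theorem gad_val {u : ℕ} (x : X h) (hu : u ≤ 2 * h) : (gad u x).1.1.val = u := by
  simp [gad, hu]

theorem gad_alp {u : ℕ} (x : X h) (hu : u ≤ 2 * h) : (gad u x).1.2 = alp u x := by
  simp [gad, hu]

/-- Rows of the copy at step `u`. -/
def Rw (u : ℕ) (x y : X h) (i : Fin 66) : Line h :=
  if i.val = 0 then .inl (blk (u / 2), x)
  else if u % 2 = 1 ∧ i.val = 1 then .inl (blk ((u + 1) / 2), x)
  else .inr (gad u x, ⟨i.val - 1, by omega⟩, x + y)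

/-- Columns of the copy at step `u`. -/
def Cl (u : ℕ) (x y : X h) (j : Fin 66) : Line h :=
  if j.val = 0 then .inl (blk ((u + 1) / 2), cpos ((u + 1) / 2) x y)
  else if u % 2 = 0 ∧ j.val = 1 then .inl (blk ((u + 2) / 2), cpos ((u + 2) / 2) x y)
  else .inr (gad u x, ⟨j.val - 1, by omega⟩, y)

theorem rrole_Rw {u : ℕ} (x y : X h) (hu : u ≤ 2 * h) (i : Fin 66) :
    rrole (gad u x) (Rw u x y i) = some i := by
  have hg := gad_val x hu
  have ha := gad_alp x hu
  unfold Rw
  split_ifs with h1 h2
  · have hok : rowOK h (gad u x).1.1 (gad u x).1.2 (blk (u / 2) : Fin (h + 2)).val x := by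
      rw [hg, ha, blk_val (by omega)]
      unfold rowOK alp
      refine ⟨fun a b c => ?_, fun a b c => ?_⟩
      · rwa [if_pos a] at b
      · rwa [if_neg (by omega), if_pos a] at b
    simp only [rrole]
    rw [if_pos hok, hg, blk_val (by omega), if_pos rfl]
    congr 1
    exact Fin.ext h1.symm
  · have hok : rowOK h (gad u x).1.1 (gad u x).1.2 (blk ((u + 1) / 2) : Fin (h + 2)).val x := by
      rw [hg, ha, blk_val (by omega)]
      unfold rowOK alp
      refine ⟨fun a b c => ?_, fun a b c => ?_⟩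
      · rwa [if_pos a] at b
      · rwa [if_neg (by omega), if_pos a] at b
    simp only [rrole]
    rw [if_pos hok, hg, blk_val (by omega), if_neg (by omega), if_pos rfl]
    congr 1
    exact Fin.ext h2.2.symm
  · simp only [rrole, if_true]
    rw [hg, if_neg (by omega)]
    congr 1
    apply Fin.ext
    simp only [Fin.val_succ]
    omega

theorem crole_Cl {u : ℕ} (x y : X h) (hh : 1 ≤ h) (hu : u ≤ 2 * h) (j : Fin 66) :
    crole (gad u x) (Cl u x y j) = some j := by
  have hg := gad_val x hu
  have ha := gad_alp x hu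
  unfold Cl
  split_ifs with h1 h2
  · have hok : colOK h (gad u x).1.1 (gad u x).1.2 (blk ((u + 1) / 2) : Fin (h + 2)).val
        (cpos ((u + 1) / 2) x y) := by
      rw [hg, ha, blk_val (by omega)]
      unfold colOK alp
      refine ⟨fun a b c => ?_, fun a b c => ?_⟩
      · rw [cpos_mid x y (by omega) (by omega)]
        rwa [if_pos a] at b
      · rw [cpos_mid x y (by omega) (by omega)]
        rwa [if_neg (by omega), if_pos a] at b
    simp only [crole]
    rw [if_pos hok, hg, blk_val (by omega), if_pos rfl]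
    congr 1
    exact Fin.ext h1.symm
  · have hok : colOK h (gad u x).1.1 (gad u x).1.2 (blk ((u + 2) / 2) : Fin (h + 2)).val
        (cpos ((u + 2) / 2) x y) := by
      rw [hg, ha, blk_val (by omega)]
      unfold colOK alp
      refine ⟨fun a b c => ?_, fun a b c => ?_⟩
      · rw [cpos_mid x y (by omega) (by omega)]
        rwa [if_pos a] at b
      · omega
    simp only [crole]
    rw [if_pos hok, hg, blk_val (by omega), if_neg (by omega), if_pos rfl]
    congr 1
    exact Fin.ext h2.2.symm
  · simp only [crole, if_true]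
    rw [hg, if_neg (by omega)]
    congr 1
    apply Fin.ext
    simp only [Fin.val_succ]
    omega

theorem rkey_Rw {u : ℕ} (x y : X h) (hu : u ≤ 2 * h) {i j : Fin 66} (hij : i < j) :
    rkey (Rw u x y i) < rkey (Rw u x y j) := by
  have hij' : i.val < j.val := hij
  unfold Rw
  rw [if_neg (by omega : ¬ j.val = 0)]
  split_ifs with h1 h2 h3 h4
  · simp only [rkey]
    rw [blk_val (by omega), blk_val (by omega)]
    omega
  · exact lt_of_lt_of_le (rkey_inl_lt _) (by rw [rkey_inr]; exact Nat.le_add_right _ _)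
  · omega
  · exact lt_of_lt_of_le (rkey_inl_lt _) (by rw [rkey_inr]; exact Nat.le_add_right _ _)
  · omega
  · simp only [rkey]
    omega

theorem ckey_Cl {u : ℕ} (x y : X h) (hh : 1 ≤ h) (hu : u ≤ 2 * h) {i j : Fin 66} (hij : i < j) :
    ckey (Cl u x y i) < ckey (Cl u x y j) := by
  have hij' : i.val < j.val := hij
  unfold Cl
  rw [if_neg (by omega : ¬ j.val = 0)]
  split_ifs with h1 h2 h3 h4
  · simp only [ckey]
    rw [blk_val (by omega), blk_val (by omega)]
    have hx := x.isLt
    have hpos : posC h ((u + 1) / 2) (cpos ((u + 1) / 2) x y) ≤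
        posC h ((u + 2) / 2) (cpos ((u + 2) / 2) x y) := by
      by_cases c1 : (u + 1) / 2 = 0
      · have : posC h ((u + 1) / 2) (cpos ((u + 1) / 2) x y) = 0 := by
          unfold posC; rw [if_pos c1]
        rw [this]; exact Nat.zero_le _
      · have e1 : posC h ((u + 1) / 2) (cpos ((u + 1) / 2) x y) = x.val := by
          rw [cpos_mid x y (by omega) (by omega)]
          unfold posC; rw [if_neg c1, if_pos (by omega)]
        rw [e1]
        by_cases c2 : (u + 2) / 2 ≤ h
        · rw [cpos_mid x y (by omega) c2]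
          unfold posC; rw [if_neg (by omega), if_pos c2]
        · unfold posC; rw [if_neg (by omega), if_neg c2]
          omega
    have hmul := Nat.mul_le_mul_right (h + 3) hpos
    omega
  · exact lt_of_lt_of_le (ckey_inl_lt _) (by rw [ckey_inr]; exact Nat.le_add_right _ _)
  · omega
  · exact lt_of_lt_of_le (ckey_inl_lt _) (by rw [ckey_inr]; exact Nat.le_add_right _ _)
  · omega
  · simp only [ckey]
    omega

/-- Every thread owns a modified cell. -/
theorem own_exists (hh : 1 ≤ h) (B : Line h → Line h → Bool)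
    (hB : ¬ ∃ R C : Fin 66 → Line h,
      (∀ i j, i < j → rkey (R i) < rkey (R j)) ∧
      (∀ i j, i < j → ckey (C i) < ckey (C j)) ∧
      ∀ i j, B (R i) (C j) = pat i j) (x y : X h) :
    ∃ r c, Own x y r c ∧ M r c ≠ B r c := by
  by_contra hcon
  push Not at hcon
  -- the chain of state cells
  obtain ⟨bv, hbv⟩ : ∃ bv : ℕ → Bool, ∀ u, bv u =
      B (.inl (blk (u / 2), x)) (.inl (blk ((u + 1) / 2), cpos ((u + 1) / 2) x y)) :=
    ⟨_, fun u => rfl⟩
  have hb0 : bv 0 = true := by
    have ho : Own x y (.inl (blk (0 / 2), x)) (.inl (blk ((0 + 1) / 2), cpos ((0 + 1) / 2) x y)) := by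
      refine ⟨rfl, ?_⟩
      simp [cpos]
    rw [hbv, ← hcon _ _ ho]
    simp only [M, dmat]
    rw [blk_val (by omega)]
    simp [st, D_top _ (le_refl h)]
  have hb1 : bv (2 * h + 1) = false := by
    have e1 : (2 * h + 1) / 2 = h := by omega
    have e2 : (2 * h + 1 + 1) / 2 = h + 1 := by omega
    have ho : Own x y (.inl (blk h, x)) (.inl (blk (h + 1), cpos (h + 1) x y)) := by
      refine ⟨rfl, ?_⟩
      simp [cpos]
    rw [hbv, e1, e2, ← hcon _ _ ho]
    simp only [M, dmat]
    rw [blk_val (by omega), blk_val (by omega), if_neg (by omega), if_pos rfl]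
    unfold st
    rw [if_neg (by omega), show 2 * h + 1 - h - 1 = h by omega, D_top _ (le_refl h),
      D_top _ (le_refl h)]
    simp
  -- a sign change
  obtain ⟨u, hu, hu1, hu2⟩ : ∃ u, u ≤ 2 * h ∧ bv u = true ∧ bv (u + 1) = false := by
    by_contra hno
    push Not at hno
    have : ∀ n, n ≤ 2 * h + 1 → bv n = true := by
      intro n
      induction n with
      | zero => intro _; exact hb0
      | succ n ih =>
        intro hn
        have h1 := ih (by omega)
        have h2 := hno n (by omega) h1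
        simpa using h2
    rw [this _ le_rfl] at hb1
    exact Bool.noConfusion hb1
  apply hB
  refine ⟨Rw u x y, Cl u x y, fun i j hij => rkey_Rw x y hu hij,
    fun i j hij => ckey_Cl x y hh hu hij, fun i j => ?_⟩
  by_cases hsp : (∃ q, Rw u x y i = .inr q) ∨ (∃ q, Cl u x y j = .inr q)
  · rw [← M_eq_pat (rrole_Rw x y hu i) (crole_Cl x y hh hu j) hsp]
    symm
    apply hcon
    -- ownership
    have hRw : (∃ k, Rw u x y i = .inl (k, x)) ∨ (∃ g a, Rw u x y i = .inr (g, a, x + y)) := by
      unfold Rw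
      split_ifs
      · exact Or.inl ⟨_, rfl⟩
      · exact Or.inl ⟨_, rfl⟩
      · exact Or.inr ⟨_, _, rfl⟩
    have hCl : (∃ k : Fin (h + 2), Cl u x y j = .inl (k, cpos k.val x y)) ∨
        (∃ g a, Cl u x y j = .inr (g, a, y)) := by
      unfold Cl
      split_ifs
      · refine Or.inl ⟨blk ((u + 1) / 2), ?_⟩
        rw [blk_val (by omega)]
      · refine Or.inl ⟨blk ((u + 2) / 2), ?_⟩
        rw [blk_val (by omega)]
      · exact Or.inr ⟨_, _, rfl⟩
    rcases hRw with ⟨k, hk⟩ | ⟨g, a, hk⟩ <;> rcases hCl with ⟨k', hk'⟩ | ⟨g', a', hk'⟩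
    · rcases hsp with ⟨q, hq⟩ | ⟨q, hq⟩
      · rw [hk] at hq; cases hq
      · rw [hk'] at hq; cases hq
    · rw [hk, hk']; exact ⟨rfl, rfl⟩
    · rw [hk, hk']; exact ⟨rfl, rfl⟩
    · rw [hk, hk']; exact ⟨rfl, rfl⟩
  · -- special × special
    push Not at hsp
    have hi : i.val = 0 ∨ (u % 2 = 1 ∧ i.val = 1) := by
      by_contra hc
      push Not at hc
      apply hsp.1 (gad u x, ⟨i.val - 1, by omega⟩, x + y)
      unfold Rw
      rw [if_neg hc.1, if_neg (by omega)]
    have hj : j.val = 0 ∨ (u % 2 = 0 ∧ j.val = 1) := by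
      by_contra hc
      push Not at hc
      apply hsp.2 (gad u x, ⟨j.val - 1, by omega⟩, y)
      unfold Cl
      rw [if_neg hc.1, if_neg (by omega)]
    rcases hi with hi | ⟨hpar, hi⟩
    · have eR : Rw u x y i = .inl (blk (u / 2), x) := by unfold Rw; rw [if_pos hi]
      rcases hj with hj | ⟨hpar', hj⟩
      · have eC : Cl u x y j = .inl (blk ((u + 1) / 2), cpos ((u + 1) / 2) x y) := by
          unfold Cl; rw [if_pos hj]
        rw [eR, eC, ← hbv, hu1]
        symm
        rw [pat_eq_true_iff]
        omega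
      · have eC : Cl u x y j = .inl (blk ((u + 2) / 2), cpos ((u + 2) / 2) x y) := by
          unfold Cl; rw [if_neg (by omega), if_pos ⟨hpar', hj⟩]
        have hv := hbv (u + 1)
        rw [show (u + 1) / 2 = u / 2 by omega, show (u + 1 + 1) / 2 = (u + 2) / 2 by omega] at hv
        rw [eR, eC, ← hv, hu2]
        symm
        rw [pat_eq_false_iff]
        omega
    · have hj' : j.val = 0 := by omega
      have eR : Rw u x y i = .inl (blk ((u + 1) / 2), x) := by
        unfold Rw; rw [if_neg (by omega), if_pos ⟨hpar, hi⟩]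
      have eC : Cl u x y j = .inl (blk ((u + 1) / 2), cpos ((u + 1) / 2) x y) := by
        unfold Cl; rw [if_pos hj']
      have hv := hbv (u + 1)
      rw [show (u + 1 + 1) / 2 = (u + 1) / 2 by omega] at hv
      rw [eR, eC, ← hv, hu2]
      symm
      rw [pat_eq_false_iff]
      omega

theorem t2 : Stmts.T2 := by
  intro h hh B hB
  have hex : ∀ l : X h × X h, ∃ p : Line h × Line h, Own l.1 l.2 p.1 p.2 ∧ M p.1 p.2 ≠ B p.1 p.2 := by
    intro l
    obtain ⟨r, c, h1, h2⟩ := own_exists hh B hB l.1 l.2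
    exact ⟨(r, c), h1, h2⟩
  choose f hf using hex
  have hcard : (2 ^ h) ^ 2 = (Finset.univ : Finset (X h × X h)).card := by
    rw [Finset.card_univ, Fintype.card_prod, Fintype.card_fin, sq]
  rw [hcard]
  apply Finset.card_le_card_of_injOn f
  · intro l _
    simp only [Finset.coe_filter, Finset.mem_univ, true_and, Set.mem_ofPred_eq]
    exact (hf l).2
  · intro l _ l' _ hll
    have h1 := (hf l).1
    have h2 := (hf l').1
    rw [← hll] at h2
    have := own_unique h1 h2
    exact Prod.ext this.1 this.2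

end Crest.Agent.R047
private theorem rz_31ccc39640 : type_of% @_root_.Crest.Agent.R047.Own.eq_1 := @_root_.Crest.Agent.R047.Own.eq_1 -- L18
end

-- ▼ part R047/Final
set_option autoImplicit false
namespace Crest.Agent.R047

theorem card_gad (h : ℕ) : Fintype.card (Gad h) ≤ 4 * h + 1 := by
  have h1 : Fintype.card (Gad h) < Fintype.card (Fin (2 * h + 1) × Bool) := by
    apply Fintype.card_subtype_lt (x := (⟨h, by omega⟩, true))
    simp
  rw [Fintype.card_prod, Fintype.card_fin, Fintype.card_bool] at h1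
  omega

theorem t3 : Stmts.T3 := by
  intro h hh
  have h1 := card_gad h
  rw [Fintype.card_sum, Fintype.card_prod, Fintype.card_prod, Fintype.card_prod, Fintype.card_fin,
    Fintype.card_fin, Fintype.card_fin, ← mul_assoc, ← add_mul]
  apply Nat.mul_le_mul_right
  have := Nat.mul_le_mul_right 65 h1
  omega

/-- Sorting the lines. -/
theorem exists_sorted {L : Type} [Fintype L] {n : ℕ} (hn : Fintype.card L ≤ n) (key : L → ℕ) :
    ∃ F : Fin n ≃ L ⊕ Fin (n - Fintype.card L), ∀ p q l l', p ≤ q → F p = .inl l → F q = .inl l' →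
      key l ≤ key l' := by
  have hc : Fintype.card (Fin n) = Fintype.card (L ⊕ Fin (n - Fintype.card L)) := by
    rw [Fintype.card_sum, Fintype.card_fin, Fintype.card_fin]; omega
  obtain ⟨e⟩ : Nonempty (Fin n ≃ L ⊕ Fin (n - Fintype.card L)) := ⟨Fintype.equivOfCardEq hc⟩
  let key' : L ⊕ Fin (n - Fintype.card L) → ℕ := Sum.elim key (fun _ => 0)
  refine ⟨(Tuple.sort (key' ∘ e)).trans e, ?_⟩
  intro p q l l' hpq hp hq
  have hm := Tuple.monotone_sort (key' ∘ e) hpq
  simp only [Function.comp_apply] at hm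
  rw [Equiv.trans_apply] at hp hq
  rw [hp, hq] at hm
  exact hm

theorem t4 : Stmts.T4 := by
  intro T1 T2 T3
  refine ⟨pat, fun h hh => ?_⟩
  obtain ⟨n, hn⟩ : ∃ n, n = (386 * h + 2) * 2 ^ h := ⟨_, rfl⟩
  have hcard := T3 h hh
  rw [← hn] at hcard ⊢
  obtain ⟨F, hF⟩ := exists_sorted hcard (rkey (h := h))
  obtain ⟨G, hG⟩ := exists_sorted hcard (ckey (h := h))
  let A : Fin n → Fin n → Bool := fun p q =>
    match F p, G q with
    | .inl r, .inl c => M r c
    | _, _ => false
  have hA : ∀ r c, A (F.symm (.inl r)) (G.symm (.inl c)) = M r c := by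
    intro r c
    simp only [A, Equiv.apply_symm_apply]
  have hA' : ∀ p q, A p q = true → (∃ r, F p = .inl r) ∧ ∃ c, G q = .inl c := by
    intro p q hpq
    simp only [A] at hpq
    rcases hp : F p with r | r <;> rcases hq : G q with c | c
    · exact ⟨⟨r, rfl⟩, ⟨c, rfl⟩⟩
    · rw [hp, hq] at hpq; simp at hpq
    · rw [hp, hq] at hpq; simp at hpq
    · rw [hp, hq] at hpq; simp at hpq
  have hpow : (0 : ℝ) < 2 ^ h := by positivity
  have hlin : (0 : ℝ) < 386 * (h : ℝ) + 2 := by positivity
  have hnR : (n : ℝ) = (386 * (h : ℝ) + 2) * 2 ^ h := by rw [hn]; push_cast; ring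
  have hnpos : (0 : ℝ) < n := by rw [hnR]; positivity
  refine ⟨A, ?_, ?_⟩
  · intro B hB
    rw [Fintype.card_eq_zero_iff] at hB
    have key := T2 h hh (fun r c => B (F.symm (.inl r)) (G.symm (.inl c))) (by
      rintro ⟨R, C, hR, hC, hM⟩
      refine hB.false ⟨(fun i => F.symm (.inl (R i)), fun j => G.symm (.inl (C j))), ?_, ?_, hM⟩
      · intro i j hij
        by_contra hcon
        push Not at hcon
        have := hF _ _ (R j) (R i) hcon (by simp) (by simp)
        exact absurd (hR i j hij) (by omega)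
      · intro i j hij
        by_contra hcon
        push Not at hcon
        have := hG _ _ (C j) (C i) hcon (by simp) (by simp)
        exact absurd (hC i j hij) (by omega))
    have hle : (Finset.univ.filter (fun p : Line h × Line h =>
        M p.1 p.2 ≠ B (F.symm (.inl p.1)) (G.symm (.inl p.2)))).card ≤
        (Finset.univ.filter (fun rc : Fin n × Fin n => A rc.1 rc.2 ≠ B rc.1 rc.2)).card := by
      apply Finset.card_le_card_of_injOn
        (fun p : Line h × Line h => (F.symm (.inl p.1), G.symm (.inl p.2)))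
      · intro p hp
        simp only [Finset.coe_filter, Finset.mem_univ, true_and, Set.mem_ofPred_eq] at hp ⊢
        rw [hA]
        exact hp
      · intro p _ q _ hpq
        simp only [Prod.mk.injEq, EmbeddingLike.apply_eq_iff_eq, Sum.inl.injEq] at hpq
        exact Prod.ext hpq.1 hpq.2
    have hfin := key.trans hle
    have hfinR : ((2 : ℝ) ^ h) ^ 2 ≤ ((Finset.univ.filter
        (fun rc : Fin n × Fin n => A rc.1 rc.2 ≠ B rc.1 rc.2)).card : ℝ) := by
      exact_mod_cast hfin
    have e : ((386 * (h : ℝ) + 2) ^ 2)⁻¹ * (n : ℝ) ^ 2 = ((2 : ℝ) ^ h) ^ 2 := by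
      rw [hnR, mul_pow]
      field_simp
    rw [e]
    exact hfinR
  · -- counting
    have hcopy : ∀ rc : {rc : (Fin 66 → Fin n) × (Fin 66 → Fin n) //
        StrictMono rc.1 ∧ StrictMono rc.2 ∧ ∀ i j : Fin 66, A (rc.1 i) (rc.2 j) = pat i j},
        ∃ x : X h, F (rc.1.1 0) = .inl (.inl (⟨h / 2, by omega⟩, x)) ∧
          G (rc.1.2 0) = .inl (.inl (⟨(h + 1) / 2, by omega⟩, x)) := by
      rintro ⟨⟨rows, cols⟩, hr, hc, hM⟩
      simp only at hr hc hM ⊢
      have hR : ∀ i, ∃ r, F (rows i) = .inl r := fun i =>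
        (hA' _ _ (by rw [hM i 65]; exact pat_last_col i)).1
      have hC : ∀ j, ∃ c, G (cols j) = .inl c := fun j =>
        (hA' _ _ (by rw [hM 65 j]; exact pat_last_row j)).2
      choose R hR using hR
      choose C hC using hC
      obtain ⟨x, hx1, hx2⟩ := T1 h hh R C
        (fun i j hij => hF _ _ _ _ (hr.monotone hij) (hR i) (hR j))
        (fun i j hij => hG _ _ _ _ (hc.monotone hij) (hC i) (hC j))
        (fun i j => by
          rw [← hM i j]
          simp only [A]
          rw [hR i, hC j])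
      exact ⟨x, by rw [hR 0, hx1], by rw [hC 0, hx2]⟩
    choose fx hfx using hcopy
    have hcount : Fintype.card {rc : (Fin 66 → Fin n) × (Fin 66 → Fin n) //
        StrictMono rc.1 ∧ StrictMono rc.2 ∧ ∀ i j : Fin 66, A (rc.1 i) (rc.2 j) = pat i j} ≤
        2 ^ h * n ^ 130 := by
      have hinj : Function.Injective (fun rc : {rc : (Fin 66 → Fin n) × (Fin 66 → Fin n) //
        StrictMono rc.1 ∧ StrictMono rc.2 ∧ ∀ i j : Fin 66, A (rc.1 i) (rc.2 j) = pat i j} =>
          ((fx rc, fun i : Fin 65 => rc.1.1 i.succ, fun j : Fin 65 => rc.1.2 j.succ) :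
            X h × (Fin 65 → Fin n) × (Fin 65 → Fin n))) := by
        intro rc rc' he
        simp only [Prod.mk.injEq] at he
        obtain ⟨e1, e2, e3⟩ := he
        have h1 := hfx rc
        have h2 := hfx rc'
        rw [← e1] at h2
        apply Subtype.ext
        apply Prod.ext
        · funext i
          refine Fin.cases ?_ (fun i => ?_) i
          · exact F.injective (h1.1.trans h2.1.symm)
          · exact congrFun e2 i
        · funext i
          refine Fin.cases ?_ (fun i => ?_) i
          · exact G.injective (h1.2.trans h2.2.symm)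
          · exact congrFun e3 i
      have := Fintype.card_le_of_injective _ hinj
      rw [Fintype.card_prod, Fintype.card_prod, Fintype.card_fun, Fintype.card_fin,
        Fintype.card_fin, Fintype.card_fin, ← pow_add] at this
      exact this
    have hcountR : (Fintype.card {rc : (Fin 66 → Fin n) × (Fin 66 → Fin n) //
        StrictMono rc.1 ∧ StrictMono rc.2 ∧ ∀ i j : Fin 66, A (rc.1 i) (rc.2 j) = pat i j} : ℝ) ≤
        2 ^ h * (n : ℝ) ^ 130 := by
      exact_mod_cast hcount
    rw [div_le_iff₀ (by positivity)]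
    refine hcountR.trans (le_of_eq ?_)
    have e1 : (n : ℝ) ^ 132 = (n : ℝ) ^ 130 * (n : ℝ) ^ 2 := by rw [← pow_add]
    rw [e1]
    have e2 : ((386 * (h : ℝ) + 2) ^ 2)⁻¹ * (2 : ℝ)⁻¹ ^ h * ((n : ℝ) ^ 130 * (n : ℝ) ^ 2) =
        (n : ℝ) ^ 130 * (((386 * (h : ℝ) + 2) ^ 2)⁻¹ * (2 : ℝ)⁻¹ ^ h * (n : ℝ) ^ 2) := by ring
    rw [e2, mul_comm]
    congr 1
    rw [hnR, inv_pow]
    field_simp

end Crest.Agent.R047
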